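import Vale.Agent.P219.Five.Defs
import Vale.Agent.P219.CH.Basic

/-!
# The sharp inequality in dimension five from its parts
-/

noncomputable section

open MeasureTheory Set Filter Topology Matrix
open scoped ENNReal

namespace Vale.Agent.P219.CH.Five

lemma mass5_eq : mass5 = polar5 * (8 * Real.pi ^ 2 / 3) := by
  have hπ := Real.pi_pos
  have h2 : Real.sqrt 2 * Real.sqrt 2 = 2 := Real.mul_self_sqrt zero_le_two
  rw [mass5, polar5, show (5 : ℝ) / 2 = ((2 : ℕ) : ℝ) + 1 / 2 by norm_num,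
    Real.rpow_add (by positivity), Real.rpow_natCast, ← Real.sqrt_eq_rpow,
    Real.sqrt_mul zero_le_two, Real.sqrt_div hπ.le]
  field_simp
  linear_combination 4 * h2

/-- The closing inequality. -/
lemma no_almost_minimiser {l θ q η s V W P g κ S : ℝ} (hl : 0 < l) (hθ : 1 ≤ θ)
    (hq : q = 3 * l ^ 5 / (625 * (8 * Real.pi ^ 2))) (hθq : θ ^ 4 * q ≤ (1 + q) / 2)
    (hη : η = (1 - q) / 64) (hη0 : 0 < η) (hV : 0 < V) (hs : s = l / 5 * θ * V ^ (-(1 : ℝ) / 5))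
    (hW : W = V ^ ((4 : ℝ) / 5)) (hP0 : 0 ≤ P) (hP : P ≤ l * W) (hg : g ≤ η * V) (hκ : 0 ≤ κ)
    (hsS : s ≤ S) (hS : S ^ 4 * polar5 * κ = η * mass5)
    (hmain : 2 * (1 - η) * mass5 * (V - g) ≤
      s ^ 4 * polar5 * ((P + κ) * V) + P * (mass5 * (1 / 5 + 5 * η)) / s) : False := by
  have hp5 : 0 < polar5 := by unfold polar5; positivity
  have hm5 : 0 < mass5 := by unfold mass5; positivity
  have hs0 : 0 < s := by rw [hs]; positivity
  have hW0 : 0 < W := by rw [hW]; positivity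
  have eV : s * V = l / 5 * θ * W := by
    rw [hs, hW, mul_assoc, ← Real.rpow_add_one hV.ne']
    norm_num
  have e4 : s ^ 4 * W = (l / 5 * θ) ^ 4 := by
    have h1 : (V ^ (-(1 : ℝ) / 5)) ^ 4 * V ^ ((4 : ℝ) / 5) = 1 := by
      rw [← Real.rpow_natCast _ 4, ← Real.rpow_mul hV.le, ← Real.rpow_add hV]
      norm_num
    rw [hs, hW, mul_pow, mul_assoc, h1, mul_one]
  have hfirst : s ^ 4 * polar5 * (P * V) ≤ mass5 * ((1 + q) / 2) * V := by
    calc s ^ 4 * polar5 * (P * V) ≤ s ^ 4 * polar5 * (l * W * V) :=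
          mul_le_mul_of_nonneg_left (mul_le_mul_of_nonneg_right hP hV.le) (by positivity)
      _ = polar5 * l * (s ^ 4 * W) * V := by ring
      _ = mass5 * (θ ^ 4 * q) * V := by rw [e4, hq, mass5_eq]; field_simp; ring
      _ ≤ _ := by gcongr
  have hsecond : P * (mass5 * (1 / 5 + 5 * η)) / s ≤ mass5 * (1 + 25 * η) * V := by
    rw [div_le_iff₀ hs0]
    have h5 : P ≤ 5 * (s * V) := by
      rw [eV]
      nlinarith
    calc P * (mass5 * (1 / 5 + 5 * η)) ≤ 5 * (s * V) * (mass5 * (1 / 5 + 5 * η)) :=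
          mul_le_mul_of_nonneg_right h5 (by positivity)
      _ = _ := by ring
  have hthird : s ^ 4 * polar5 * (κ * V) ≤ mass5 * η * V := by
    calc s ^ 4 * polar5 * (κ * V) ≤ S ^ 4 * polar5 * (κ * V) := by gcongr
      _ = S ^ 4 * polar5 * κ * V := by ring
      _ = _ := by rw [hS]; ring
  have hmV : 0 < mass5 * V := mul_pos hm5 hV
  have hη1 : η ≤ 1 := by
    have : 0 ≤ q := by rw [hq]; positivity
    linarith
  have h2 : (1 - 2 * η) * V ≤ (1 - η) * (V - g) := by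
    nlinarith [mul_le_mul_of_nonneg_left hg (by linarith : 0 ≤ 1 - η), mul_nonneg (mul_nonneg hη0.le hη0.le) hV.le]
  have h3 : mass5 * ((2 - 4 * η) * V) ≤ 2 * (1 - η) * mass5 * (V - g) := by
    nlinarith [mul_le_mul_of_nonneg_left h2 hm5.le]
  have h4 : mass5 * V * (2 - 4 * η) ≤ mass5 * V * ((1 + q) / 2 + η + (1 + 25 * η)) := by linarith
  linarith [le_of_mul_le_mul_left h4 hmV]

/-- The assembly. -/
theorem assembly : AssemblyPin := by
  intro hMin hRow hLines G D e h he Ω A hΩ hΩb hA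
  by_contra hlt
  rw [not_le] at hlt
  obtain ⟨L, hL⟩ : ∃ L : ℝ, L = 5 * (8 * Real.pi ^ 2 / 15) ^ ((1 : ℝ) / 5) := ⟨_, rfl⟩
  rw [← hL] at hlt
  have hA0 : 0 ≤ A := by
    obtain ⟨S, v, -, -, -, hA'⟩ := hA
    exact le_trans (h.per_nonneg (v 0)) (hA' 0)
  obtain ⟨X, hX⟩ : ∃ X : ℝ, X = volG G Ω ^ ((4 : ℝ) / 5) := ⟨_, rfl⟩
  rw [← hX] at hlt
  have hL0 : 0 < L := by rw [hL]; positivity
  have hX0 : 0 < X := by
    by_contra hX0
    rw [not_lt] at hX0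
    linarith [mul_nonpos_of_nonneg_of_nonpos hL0.le hX0]
  obtain ⟨l, hl1, hl2⟩ := exists_between ((div_lt_iff₀ hX0).2 hlt)
  have hl : 0 < l := lt_of_le_of_lt (div_nonneg hA0 hX0.le) hl1
  have hexp : ((((5 : ℕ) : ℝ)) - 1) / ((5 : ℕ) : ℝ) = 4 / 5 := by norm_num
  obtain ⟨R, M, P₀, v₀, hR, hM, hP₀, hv₀, hmin⟩ := hMin (by norm_num) G D h Ω A l hΩ hΩb hA hl
    (by rw [hexp, ← hX]; exact (div_lt_iff₀ hX0).1 hl1) 0
  obtain ⟨q, hq⟩ : ∃ q : ℝ, q = 3 * l ^ 5 / (625 * (8 * Real.pi ^ 2)) := ⟨_, rfl⟩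
  have hq0 : 0 < q := by rw [hq]; positivity
  have hL5 : L ^ 5 = 625 * (8 * Real.pi ^ 2) / 3 := by
    rw [hL, mul_pow, ← Real.rpow_natCast ((8 * Real.pi ^ 2 / 15) ^ ((1 : ℝ) / 5)) 5,
      ← Real.rpow_mul (by positivity)]
    norm_num
    ring
  have hq1 : q < 1 := by
    rw [hq, div_lt_one (by positivity)]
    have := pow_lt_pow_left₀ hl2 hl.le (by norm_num : (5 : ℕ) ≠ 0)
    rw [hL5] at this
    linarith
  obtain ⟨θ, hθ⟩ : ∃ θ : ℝ, θ = ((1 + q) / (2 * q)) ^ ((1 : ℝ) / 4) := ⟨_, rfl⟩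
  have hθ1 : 1 < θ := hθ ▸ Real.one_lt_rpow ((one_lt_div (by positivity)).2 (by linarith))
    (by norm_num)
  have hθ4 : θ ^ 4 * q ≤ (1 + q) / 2 := by
    rw [hθ, ← Real.rpow_natCast _ 4, ← Real.rpow_mul (by positivity)]
    norm_num
    field_simp
    linarith
  obtain ⟨η, hη⟩ : ∃ η : ℝ, η = (1 - q) / 64 := ⟨_, rfl⟩
  have hη0 : 0 < η := by linarith
  obtain ⟨S, hS⟩ : ∃ S : ℝ, S = l / 5 * θ * v₀ ^ (-(1 : ℝ) / 5) := ⟨_, rfl⟩
  have hθ0 : 0 < θ := by linarith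
  have hS0 : 0 < S := by rw [hS]; positivity
  obtain ⟨ε, hε, hline⟩ := hLines G D e h he η S hη0 (by linarith) hS0
  have hp5 : 0 < polar5 := by unfold polar5; positivity
  have hm5 : 0 < mass5 := by unfold mass5; positivity
  obtain ⟨κ, hκ⟩ : ∃ κ : ℝ, κ = η * mass5 / (S ^ 4 * polar5) := ⟨_, rfl⟩
  have hκ0 : 0 < κ := by rw [hκ]; positivity
  obtain ⟨δ₀, hδ₀, hrow⟩ := hRow G D h 0 R M P₀ v₀ l θ ε κ hR hM hP₀ hv₀ hl hθ1 hε hκ0
  obtain ⟨δ, hδ⟩ : ∃ δ : ℝ, δ = min δ₀ (η * v₀) := ⟨_, rfl⟩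
  have hδ0 : 0 < δ := hδ ▸ lt_min hδ₀ (by positivity)
  obtain ⟨u, hu, hPu, hVu, hgu, hPV, hopt⟩ := hmin δ hδ0
  rw [hexp] at hPV
  have hV0 : 0 < vol G u := hv₀.trans_le hVu
  have hs0 : 0 < scale G l θ u := by rw [scale]; positivity
  have hsS : scale G l θ u ≤ S := by
    rw [scale, hS]
    exact mul_le_mul_of_nonneg_left (Real.rpow_le_rpow_of_nonpos hv₀ hVu (by norm_num))
      (by positivity)
  have hP0 := h.per_nonneg u
  have hmain := hline (scale G l θ u) 0 R u (per G u + κ) hs0 hsS hu (by linarith) fun x hx =>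
    hrow δ u (hδ ▸ min_le_left _ _) hδ0 ⟨hu, hPu, hVu, hgu, hopt⟩ x hx
  exact no_almost_minimiser hl hθ1.le hq hθ4 hη hη0 hV0 rfl rfl hP0 hPV
    (hgu.trans ((hδ ▸ min_le_right _ _).trans (mul_le_mul_of_nonneg_left hVu hη0.le))) hκ0.le hsS
    (by rw [hκ]; field_simp) hmain

end Vale.Agent.P219.CH.Five
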