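import Mathlib

/-!
# P219, dimension five: the rational weight of the interior centre certificate

The field is `prof r • grad r`; along a chord the integrand is `r ^ 4 * kern r d`.
-/

noncomputable section

open Set MeasureTheory intervalIntegral

namespace Vale.Agent.P219.CH.Five

/-- The radial profile. -/
def prof (r : ℝ) : ℝ := 2 * (r ^ 3 + 4 * r ^ 2 + 6 * r + 6) / (3 * r ^ 2 * (2 + r) ^ 2)

/-- The derivative of the profile. -/
def profD (r : ℝ) : ℝ :=
  -(2 * r ^ 4 + 12 * r ^ 3 + 36 * r ^ 2 + 72 * r + 48) / (3 * r ^ 3 * (2 + r) ^ 3)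

/-- The integrand of the certificate at distance `r` and cosine `d`, the mean curvature being four. -/
def kern (r d : ℝ) : ℝ :=
  1 + (1 - d ^ 2) * profD r + ((3 + d ^ 2) / r - 4 * d) * prof r

/-- The positive factor of `r ^ 4 * kern r d - 2 * d`. -/
def quot (r d : ℝ) : ℝ :=
  24 + 36 * r + 48 * r ^ 2 + 48 * r ^ 3 + 40 * r ^ 4 + 18 * r ^ 5 + 3 * r ^ 6 -
    d * (36 * r + 54 * r ^ 2 + 32 * r ^ 3 + 12 * r ^ 4 + 2 * r ^ 5)

theorem hasDerivAt_prof {r : ℝ} (hr : 0 < r) : HasDerivAt prof (profD r) r := by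
  have h : HasDerivAt (fun x : ℝ => 2 * (x ^ 3 + 4 * x ^ 2 + 6 * x + 6) /
      (3 * x ^ 2 * (2 + x) ^ 2)) _ r :=
    (((((hasDerivAt_pow 3 r).add ((hasDerivAt_pow 2 r).const_mul 4)).add
      ((hasDerivAt_id r).const_mul 6)).add_const 6).const_mul 2).div
      (((hasDerivAt_pow 2 r).const_mul 3).mul (((hasDerivAt_id r).const_add 2).pow 2))
      (by positivity)
  refine h.congr_deriv ?_
  simp only [profD, Pi.add_apply, id_eq]
  push_cast
  field_simp
  ring

theorem prof_pos {r : ℝ} (hr : 0 < r) : 0 < prof r := by unfold prof; positivity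

theorem profD_neg {r : ℝ} (hr : 0 < r) : profD r < 0 :=
  div_neg_of_neg_of_pos (by nlinarith [pow_pos hr 2, pow_pos hr 3, pow_pos hr 4]) (by positivity)

/-- The factorisation behind the certificate. -/
theorem kern_sub {r : ℝ} (hr : 0 < r) (d : ℝ) :
    r ^ 4 * kern r d - 2 * d = (r - 2 * d) * quot r d / (3 * (2 + r) ^ 3) := by
  have : (2 + r : ℝ) ≠ 0 := by linarith
  unfold kern prof profD quot
  field_simp
  ring

theorem quot_pos {r d : ℝ} (hr : 0 ≤ r) (hd : d ≤ 1) : 0 < quot r d := by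
  have h : 0 ≤ 36 * r + 54 * r ^ 2 + 32 * r ^ 3 + 12 * r ^ 4 + 2 * r ^ 5 := by positivity
  have hm := mul_le_mul_of_nonneg_right hd h
  unfold quot
  have h2 : 0 < 24 - 6 * r ^ 2 + 16 * r ^ 3 + 28 * r ^ 4 + 16 * r ^ 5 + 3 * r ^ 6 := by
    rcases le_total r 1 with h1 | h1
    · nlinarith [pow_le_one₀ (n := 2) hr h1, pow_nonneg hr 3, pow_nonneg hr 4, pow_nonneg hr 5,
        pow_nonneg hr 6]
    · nlinarith [mul_le_mul_of_nonneg_left h1 (sq_nonneg r), pow_nonneg hr 4, pow_nonneg hr 5,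
        pow_nonneg hr 6]
  nlinarith

/-- Beyond the diagonal the integrand is at least its diagonal value. -/
theorem two_mul_le {r d : ℝ} (hr : 0 < r) (hd : d ≤ 1) (h : 2 * d ≤ r) :
    2 * d ≤ r ^ 4 * kern r d := by
  have e := kern_sub hr d
  have : 0 ≤ (r - 2 * d) * quot r d / (3 * (2 + r) ^ 3) :=
    div_nonneg (mul_nonneg (by linarith) (quot_pos hr.le hd).le) (by positivity)
  linarith

/-- Before the diagonal it is at most that. -/
theorem le_two_mul {r d : ℝ} (hr : 0 < r) (hd : d ≤ 1) (h : r ≤ 2 * d) :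
    r ^ 4 * kern r d ≤ 2 * d := by
  have e := kern_sub hr d
  have : (r - 2 * d) * quot r d / (3 * (2 + r) ^ 3) ≤ 0 :=
    div_nonpos_of_nonpos_of_nonneg
      (mul_nonpos_of_nonpos_of_nonneg (by linarith) (quot_pos hr.le hd).le) (by positivity)
  linarith

/-- The integrand is nonnegative for every cosine of modulus at most one. -/
theorem kern_nonneg {r d : ℝ} (hr : 0 < r) (hd : |d| ≤ 1) : 0 ≤ kern r d := by
  obtain ⟨hd1, hd2⟩ := abs_le.1 hd
  have key : 0 ≤ (24 + 36 * r + 48 * r ^ 2 + 48 * r ^ 3 + 40 * r ^ 4 + 18 * r ^ 5 + 3 * r ^ 6) -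
      (96 * r + 144 * r ^ 2 + 112 * r ^ 3 + 48 * r ^ 4 + 8 * r ^ 5) * d +
      (72 + 108 * r + 64 * r ^ 2 + 24 * r ^ 3 + 4 * r ^ 4) * d ^ 2 := by
    rcases le_total (2 * d) r with h | h
    · rcases le_total d 0 with h0 | h0
      · have := mul_nonneg (by positivity :
          (0 : ℝ) ≤ 96 * r + 144 * r ^ 2 + 112 * r ^ 3 + 48 * r ^ 4 + 8 * r ^ 5) (neg_nonneg.2 h0)
        have := mul_nonneg (by positivity :
          (0 : ℝ) ≤ 72 + 108 * r + 64 * r ^ 2 + 24 * r ^ 3 + 4 * r ^ 4) (sq_nonneg d)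
        nlinarith [pow_nonneg hr.le 2, pow_nonneg hr.le 3, pow_nonneg hr.le 4, pow_nonneg hr.le 5,
          pow_nonneg hr.le 6]
      · have e := two_mul_le hr hd2 h
        have e2 : 0 ≤ 3 * (2 + r) ^ 3 * r ^ 3 * kern r d := by
          have : 0 ≤ r ^ 4 * kern r d := by linarith
          have : 0 ≤ kern r d := nonneg_of_mul_nonneg_right this (by positivity)
          positivity
        refine le_of_le_of_eq e2 ?_
        unfold kern prof profD
        field_simp
        ring
    · have hr2 : r ≤ 2 := by linarith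
      have ht : 0 ≤ 24 + 12 * r - 6 * r ^ 2 - 27 * r ^ 3 + 8 * r ^ 5 + 2 * r ^ 6 := by
        nlinarith [sq_nonneg (r - 13 / 10), mul_nonneg hr.le (sq_nonneg (r - 13 / 10)),
          mul_nonneg (pow_nonneg hr.le 2) (sq_nonneg (r - 13 / 10)),
          mul_nonneg (pow_nonneg hr.le 3) (sq_nonneg (r - 13 / 10)),
          mul_nonneg (pow_nonneg hr.le 4) (sq_nonneg (r - 13 / 10))]
      have h1 : 0 ≤ r * (24 + 36 * r + 48 * r ^ 2 + 24 * r ^ 3 + 4 * r ^ 4) := by positivity
      have h2 : 0 ≤ (72 + 108 * r + 64 * r ^ 2 + 24 * r ^ 3 + 4 * r ^ 4) * (d - r / 2) ^ 2 := by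
        positivity
      have h3 := mul_le_mul_of_nonneg_left (show d - r / 2 ≤ 1 - r / 2 by linarith) h1
      linear_combination ht + h2 + h3
  have e : kern r d = ((24 + 36 * r + 48 * r ^ 2 + 48 * r ^ 3 + 40 * r ^ 4 + 18 * r ^ 5 + 3 * r ^ 6) -
      (96 * r + 144 * r ^ 2 + 112 * r ^ 3 + 48 * r ^ 4 + 8 * r ^ 5) * d +
      (72 + 108 * r + 64 * r ^ 2 + 24 * r ^ 3 + 4 * r ^ 4) * d ^ 2) / (3 * r ^ 3 * (2 + r) ^ 3) := by
    unfold kern prof profD
    field_simp
    ring
  rw [e]
  exact div_nonneg key (by positivity)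

/-- The integrand as a rational function without a pole at zero. -/
def line (t c : ℝ) : ℝ := 2 * c + (t - 2 * c) * quot t c / (3 * (2 + t) ^ 3)

theorem line_eq {t : ℝ} (ht : 0 < t) (c : ℝ) : line t c = t ^ 4 * kern t c := by
  have := kern_sub ht c
  unfold line
  linarith

theorem continuousOn_line (c : ℝ) : ContinuousOn (fun t => line t c) (Ici 0) := by
  have h : ∀ t ∈ Ici (0 : ℝ), 3 * (2 + t) ^ 3 ≠ 0 := fun t ht =>
    (by have := mem_Ici.1 ht; positivity)
  unfold line quot
  exact continuousOn_const.add (ContinuousOn.div (by fun_prop) (by fun_prop) h)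

/-- The chord inequality: `J(r, c) - 2 c r` is least at `r = 2 c`. -/
theorem chord_inequality {r c : ℝ} (hr : 0 ≤ r) (hc : 0 ≤ c) (hc1 : c ≤ 1) :
    (∫ t in (0 : ℝ)..(2 * c), line t c) - 4 * c ^ 2 ≤
      (∫ t in (0 : ℝ)..r, line t c) - 2 * c * r := by
  have hI : ∀ a b : ℝ, 0 ≤ a → 0 ≤ b → IntervalIntegrable (fun t => line t c) volume a b :=
    fun a b ha hb => ((continuousOn_line c).mono fun t ht =>
      mem_Ici.2 ((le_min ha hb).trans ht.1)).intervalIntegrable
  have hsplit := integral_add_adjacent_intervals (hI 0 (2 * c) le_rfl (by linarith))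
    (hI (2 * c) r (by linarith) hr)
  rcases le_total (2 * c) r with h | h
  · have hb : 2 * c * (r - 2 * c) ≤ ∫ t in (2 * c)..r, line t c := by
      refine le_trans (le_of_eq ?_) (integral_mono_on h intervalIntegrable_const
        (hI (2 * c) r (by linarith) hr) (g := fun t => line t c) (f := fun _ => 2 * c) fun t ht => ?_)
      · rw [intervalIntegral.integral_const, smul_eq_mul, mul_comm]
      · have ht0 : 0 ≤ t := le_trans (by linarith) ht.1
        have : 0 ≤ (t - 2 * c) * quot t c / (3 * (2 + t) ^ 3) :=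
          div_nonneg (mul_nonneg (by linarith [ht.1]) (quot_pos ht0 hc1).le) (by positivity)
        show 2 * c ≤ line t c
        unfold line
        linarith
    nlinarith
  · have hb : ∫ t in r..(2 * c), line t c ≤ 2 * c * (2 * c - r) := by
      refine le_trans (integral_mono_on h (hI r (2 * c) hr (by linarith)) intervalIntegrable_const
        (f := fun t => line t c) (g := fun _ => 2 * c) fun t ht => ?_) (le_of_eq ?_)
      · have ht0 : 0 ≤ t := le_trans hr ht.1
        have : (t - 2 * c) * quot t c / (3 * (2 + t) ^ 3) ≤ 0 :=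
          div_nonpos_of_nonpos_of_nonneg
            (mul_nonpos_of_nonpos_of_nonneg (by linarith [ht.2]) (quot_pos ht0 hc1).le)
            (by positivity)
        show line t c ≤ 2 * c
        unfold line
        linarith
      · rw [intervalIntegral.integral_const, smul_eq_mul, mul_comm]
    rw [intervalIntegral.integral_symm r (2 * c)] at hsplit
    nlinarith

end Vale.Agent.P219.CH.Five
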