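import Vale.Agent.P219.Six.Defs
import Vale.Agent.P219.Sharp.Defs
import Vale.Agent.P219.Five.Weight

/-!
# P219: the sharp isoperimetric inequality of five-dimensional Cartan-Hadamard manifolds

The first variation is tested with `w (s ρ) • grad (D x)`, `ρ ^ 2 = 2 D x + ε ^ 2`, at every centre
`x` of the set; along the geodesics from `x` it bounds the set from below. The parts are stated
here as pins. See `notes/P219/helper2-five-plan.md`.
-/

noncomputable section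

open MeasureTheory Set Filter Topology Matrix
open scoped ENNReal

namespace Vale.Agent.P219.CH.Five

/-- The total Gaussian weight of a fibre. -/
def mass5 : ℝ := (2 * Real.pi) ^ ((5 : ℝ) / 2)

/-- The radial Gaussian integral `∫ ρ ^ 4 exp (-ρ ^ 2 / 2)` over `ρ > 0`. -/
def polar5 : ℝ := 3 * Real.sqrt (Real.pi / 2)

/-- The shortfall of the certificate at distance `t` and cosine `d`. -/
def gapN (t d : ℝ) : ℝ := max (2 * d - line (max t 0) d) 0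

/-- The shortfall along a chord. -/
def gapInt (d : ℝ) : ℝ := ∫ t in (0 : ℝ)..2, gapN t d

/-- The scale of an almost minimiser: a quarter of its mean curvature. -/
def scale (G : (Fin 5 → ℝ) → Matrix (Fin 5) (Fin 5) ℝ) (l θ : ℝ) (u : (Fin 5 → ℝ) → ℝ) : ℝ :=
  l / 5 * θ * vol G u ^ (-(1 : ℝ) / 5)

/-! ## Pins -/

/-- The row of every centre of the ball at an almost minimiser. -/
def RowPin : Prop :=
  ∀ (G : (Fin 5 → ℝ) → Matrix (Fin 5) (Fin 5) ℝ) (D : (Fin 5 → ℝ) → (Fin 5 → ℝ) → ℝ), IsCH G D →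
    ∀ (o : Fin 5 → ℝ) (R M P₀ v₀ l θ ε κ : ℝ),
      0 < R → 0 ≤ M → 0 ≤ P₀ → 0 < v₀ → 0 < l → 1 < θ → 0 < ε → 0 < κ →
    ∃ δ₀ : ℝ, 0 < δ₀ ∧ ∀ δ u, δ ≤ δ₀ → 0 < δ → Sharp.NearMin G D o R P₀ v₀ l M δ u →
      ∀ x, D o x ≤ R →
        ∫⁻ y, ENNReal.ofReal (kern (scale G l θ u * Real.sqrt (2 * D x y + ε ^ 2))
            (Six.acos G D u x y)) ∂Sharp.pm G u ≤ ENNReal.ofReal (per G u + κ)

/-- The geodesic change of variables from one point, with Rauch's Jacobian bound. -/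
def PolarPin : Prop :=
  ∀ (G : (Fin 5 → ℝ) → Matrix (Fin 5) (Fin 5) ℝ) (D : (Fin 5 → ℝ) → (Fin 5 → ℝ) → ℝ)
    (e : Six.Phase 5 → Fin 5 → ℝ), IsCH G D → Six.IsExp G D e →
    ∀ (x : Fin 5 → ℝ) (f : (Fin 5 → ℝ) → ℝ≥0∞), Measurable f →
      ∫⁻ v, ENNReal.ofReal (Six.fibre G x v) * ∫⁻ t in Ioi (0 : ℝ),
          f (Six.line e (x, v) t) *
            ENNReal.ofReal ((t * Six.vnorm G x v) ^ 4 * Six.vnorm G x v) ≤
        ENNReal.ofReal polar5 * ∫⁻ y, f y ∂Six.volM G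

/-- The law of the absolute cosine of a Gaussian direction with a covector, on one side of it. -/
def MomentPin : Prop :=
  ∀ (G : (Fin 5 → ℝ) → Matrix (Fin 5) (Fin 5) ℝ) (x ξ : Fin 5 → ℝ), (G x).PosDef →
    (∫⁻ v, ENNReal.ofReal (Six.fibre G x v) = ENNReal.ofReal mass5) ∧
    ∀ (g : ℝ → ℝ) (B : ℝ), Measurable g → (∀ c, 0 ≤ g c) → (∀ c, g c ≤ B) →
      ∫⁻ v, ENNReal.ofReal (Six.fibre G x v) * {v | ξ ⬝ᵥ v < 0}.indicator
          (fun v => ENNReal.ofReal (g (|ξ ⬝ᵥ v| / (conorm G x ξ * Six.vnorm G x v)))) v ≤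
        ENNReal.ofReal (mass5 * (3 / 4 * ∫ c in (0 : ℝ)..1, g c * (1 - c ^ 2)))

/-- The value of the certificate. -/
def IntegralPin : Prop := ∫ d in (0 : ℝ)..1, gapInt d * (1 - d ^ 2) = 4 / 15

/-- The integral along geodesics: polar coordinates, flow invariance and the moments. -/
def LinesPin : Prop :=
  ∀ (G : (Fin 5 → ℝ) → Matrix (Fin 5) (Fin 5) ℝ) (D : (Fin 5 → ℝ) → (Fin 5 → ℝ) → ℝ)
    (e : Six.Phase 5 → Fin 5 → ℝ), IsCH G D → Six.IsExp G D e →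
    ∀ η s₁ : ℝ, 0 < η → η < 1 → 0 < s₁ →
    ∃ ε : ℝ, 0 < ε ∧ ∀ (s : ℝ) (o : Fin 5 → ℝ) (R : ℝ) (u : (Fin 5 → ℝ) → ℝ) (B : ℝ),
      0 < s → s ≤ s₁ → Comp {y | D o y ≤ R} u → 0 ≤ B →
      (∀ x, D o x ≤ R → ∫⁻ y, ENNReal.ofReal (kern (s * Real.sqrt (2 * D x y + ε ^ 2))
          (Six.acos G D u x y)) ∂Sharp.pm G u ≤ ENNReal.ofReal B) →
      2 * (1 - η) * mass5 * (vol G u - gap G u) ≤
        s ^ 4 * polar5 * (B * vol G u) + per G u * (mass5 * (1 / 5 + 5 * η)) / s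

/-- The sharp inequality in dimension five. -/
def SharpFive : Prop :=
  ∀ (G : (Fin 5 → ℝ) → Matrix (Fin 5) (Fin 5) ℝ) (D : (Fin 5 → ℝ) → (Fin 5 → ℝ) → ℝ)
    (e : Six.Phase 5 → Fin 5 → ℝ), IsCH G D → Six.IsExp G D e →
    ∀ (Ω : Set (Fin 5 → ℝ)) (A : ℝ), MeasurableSet Ω → Bornology.IsBounded Ω →
      PerimeterLE G Ω A →
      5 * (8 * Real.pi ^ 2 / 15) ^ ((1 : ℝ) / 5) * volG G Ω ^ ((4 : ℝ) / 5) ≤ A

/-- The assembly. -/
def AssemblyPin : Prop := MinPin 5 → RowPin → LinesPin → SharpFive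

/-- The line inequality from its parts. -/
def LinesAssemblyPin : Prop := PolarPin → MomentPin → IntegralPin → LinesPin

end Vale.Agent.P219.CH.Five
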