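import Vale.Agent.P219.Bend.Defs
import Vale.Agent.P219.CH.Flat

/-!
# The unit ball of five-dimensional space
-/

noncomputable section

open MeasureTheory

namespace Vale.Agent.P219.CH.Five

lemma unitBall_five : Bend.unitBall 5 = 8 * Real.pi ^ 2 / 15 := by
  rw [Bend.unitBall, EuclideanSpace.volume_ball]
  have hπ := Real.pi_pos
  have hg : Real.Gamma (((5 : ℕ) : ℝ) / 2 + 1) = 15 / 8 * Real.sqrt Real.pi := by
    rw [show (((5 : ℕ) : ℝ) / 2 + 1) = (1 / 2 + 1 + 1) + 1 by norm_num,
      Real.Gamma_add_one (by norm_num), Real.Gamma_add_one (by norm_num),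
      Real.Gamma_add_one (by norm_num), Real.Gamma_one_half_eq]
    ring
  simp only [ENNReal.ofReal_one, one_pow, one_mul, Fintype.card_fin, hg]
  rw [ENNReal.toReal_ofReal (by positivity),
    show Real.sqrt Real.pi ^ 5 = (Real.sqrt Real.pi ^ 2) ^ 2 * Real.sqrt Real.pi by ring,
    Real.sq_sqrt hπ.le]
  field_simp

end Vale.Agent.P219.CH.Five
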