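import Vale.Agent.P219.Five.LinesReal

/-!
# P219, dimension five: the value of the certificate
-/

noncomputable section

open MeasureTheory Set intervalIntegral

namespace Vale.Agent.P219.CH.Five

/-- The inner polynomial. -/
def innerP (t : ℝ) : ℝ :=
  12 - 38 / 5 * t + 3 / 5 * t ^ 2 + 179 / 30 * t ^ 3 + 61 / 20 * t ^ 4 - 233 / 40 * t ^ 5
    - 413 / 240 * t ^ 6 + 267 / 160 * t ^ 7 + 7 / 20 * t ^ 8 - 3 / 20 * t ^ 9 - 1 / 40 * t ^ 10

/-- The numerator of the antiderivative. -/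
def outerN (t : ℝ) : ℝ :=
  8 / 5 + 38 / 5 * t + 1 / 10 * t ^ 3 + 11 / 15 * t ^ 4 + 19 / 120 * t ^ 5 - 21 / 40 * t ^ 6
    + 13 / 480 * t ^ 7 + 23 / 240 * t ^ 8 - 1 / 80 * t ^ 9 - 1 / 320 * t ^ 10

lemma hasDerivAt_outer {t : ℝ} (ht : 0 ≤ t) :
    HasDerivAt (fun x => outerN x / (3 * (2 + x) ^ 2)) (innerP t / (3 * (2 + t) ^ 3)) t := by
  have hN : HasDerivAt outerN (38 / 5 + 3 / 10 * t ^ 2 + 44 / 15 * t ^ 3 + 19 / 24 * t ^ 4
      - 63 / 20 * t ^ 5 + 91 / 480 * t ^ 6 + 23 / 30 * t ^ 7 - 9 / 80 * t ^ 8 - 1 / 32 * t ^ 9) t := by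
    have h : HasDerivAt outerN _ t :=
      ((((((((((hasDerivAt_id t).const_mul (38 / 5)).const_add (8 / 5)).add
        ((hasDerivAt_pow 3 t).const_mul (1 / 10))).add
        ((hasDerivAt_pow 4 t).const_mul (11 / 15))).add
        ((hasDerivAt_pow 5 t).const_mul (19 / 120))).sub
        ((hasDerivAt_pow 6 t).const_mul (21 / 40))).add
        ((hasDerivAt_pow 7 t).const_mul (13 / 480))).add
        ((hasDerivAt_pow 8 t).const_mul (23 / 240))).sub
        ((hasDerivAt_pow 9 t).const_mul (1 / 80))).sub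
        ((hasDerivAt_pow 10 t).const_mul (1 / 320))
    refine h.congr_deriv ?_
    push_cast
    ring
  have h0 : (2 + t : ℝ) ≠ 0 := by linarith
  have h : HasDerivAt (fun x => outerN x / (3 * (2 + x) ^ 2)) _ t :=
    hN.div ((((hasDerivAt_id t).const_add 2).pow 2).const_mul 3) (by simp; exact h0)
  refine h.congr_deriv ?_
  simp only [id_eq, outerN, innerP]
  push_cast
  field_simp
  ring

lemma outer_value : ∫ t in (0 : ℝ)..2, innerP t / (3 * (2 + t) ^ 3) = 4 / 15 := by
  have hc : ContinuousOn (fun t : ℝ => innerP t / (3 * (2 + t) ^ 3)) (uIcc 0 2) := by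
    refine ContinuousOn.div ?_ (by fun_prop) fun t ht => ?_
    · unfold innerP; fun_prop
    · rw [uIcc_of_le (by norm_num : (0 : ℝ) ≤ 2)] at ht
      have := ht.1
      positivity
  have hd : ∀ t ∈ uIcc (0 : ℝ) 2,
      HasDerivAt (fun x => outerN x / (3 * (2 + x) ^ 2)) (innerP t / (3 * (2 + t) ^ 3)) t :=
    fun t ht => by
      rw [uIcc_of_le (by norm_num : (0 : ℝ) ≤ 2)] at ht
      exact hasDerivAt_outer ht.1
  rw [integral_eq_sub_of_hasDerivAt hd hc.intervalIntegrable]
  norm_num [outerN]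

/-- The antiderivative in the cosine. -/
def innerG (t d : ℝ) : ℝ :=
  -(t * quot t 0) * d + (2 * quot t 0 + t * (quot t 0 - quot t 1)) / 2 * d ^ 2
    + (t * quot t 0 - 2 * (quot t 0 - quot t 1)) / 3 * d ^ 3
    - (2 * quot t 0 + t * (quot t 0 - quot t 1)) / 4 * d ^ 4
    + 2 * (quot t 0 - quot t 1) / 5 * d ^ 5

lemma hasDerivAt_innerG (t d : ℝ) :
    HasDerivAt (innerG t) ((1 - d ^ 2) * (2 * d - t) * quot t d) d := by
  have h : HasDerivAt (innerG t) _ d :=
    (((((hasDerivAt_id d).const_mul (-(t * quot t 0))).add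
      ((hasDerivAt_pow 2 d).const_mul ((2 * quot t 0 + t * (quot t 0 - quot t 1)) / 2))).add
      ((hasDerivAt_pow 3 d).const_mul ((t * quot t 0 - 2 * (quot t 0 - quot t 1)) / 3))).sub
      ((hasDerivAt_pow 4 d).const_mul ((2 * quot t 0 + t * (quot t 0 - quot t 1)) / 4))).add
      ((hasDerivAt_pow 5 d).const_mul (2 * (quot t 0 - quot t 1) / 5))
  refine h.congr_deriv ?_
  simp only [quot]
  push_cast
  ring

lemma gapN_zero_of_le {t d : ℝ} (ht : 0 ≤ t) (hd : d ≤ 1) (h : 2 * d ≤ t) : gapN t d = 0 := by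
  have : 0 ≤ (t - 2 * d) * quot t d / (3 * (2 + t) ^ 3) :=
    div_nonneg (mul_nonneg (by linarith) (quot_pos ht hd).le) (by positivity)
  rw [gapN, max_eq_left ht, max_eq_right]
  unfold line
  linarith

lemma gapN_eq {t d : ℝ} (ht : 0 ≤ t) (hd : d ≤ 1) (h : t ≤ 2 * d) :
    gapN t d = (2 * d - t) * quot t d / (3 * (2 + t) ^ 3) := by
  have h0 : (t - 2 * d) * quot t d / (3 * (2 + t) ^ 3) ≤ 0 :=
    div_nonpos_of_nonpos_of_nonneg (mul_nonpos_of_nonpos_of_nonneg (by linarith) (quot_pos ht hd).le)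
      (by positivity)
  rw [gapN, max_eq_left ht, max_eq_left]
  · unfold line; ring
  · unfold line; linarith

lemma inner_value {t : ℝ} (ht0 : 0 ≤ t) (ht2 : t ≤ 2) :
    ∫ d in (0 : ℝ)..1, gapN t d * (1 - d ^ 2) = innerP t / (3 * (2 + t) ^ 3) := by
  have hc : Continuous fun d => gapN t d * (1 - d ^ 2) :=
    (continuous_gapN.comp (continuous_const.prodMk continuous_id)).mul (by fun_prop)
  rw [← integral_add_adjacent_intervals (hc.intervalIntegrable 0 (t / 2))
    (hc.intervalIntegrable (t / 2) 1)]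
  have z1 : ∫ d in (0 : ℝ)..(t / 2), gapN t d * (1 - d ^ 2) = 0 := by
    rw [integral_congr (g := fun _ => (0 : ℝ)) fun d hd => ?_, intervalIntegral.integral_zero]
    rw [uIcc_of_le (by linarith : (0 : ℝ) ≤ t / 2)] at hd
    simp only
    rw [gapN_zero_of_le ht0 (by linarith [hd.2]) (by linarith [hd.2]), zero_mul]
  have z2 : ∫ d in (t / 2)..1, gapN t d * (1 - d ^ 2) =
      (∫ d in (t / 2)..1, (1 - d ^ 2) * (2 * d - t) * quot t d) / (3 * (2 + t) ^ 3) := by
    rw [← intervalIntegral.integral_div]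
    refine integral_congr fun d hd => ?_
    rw [uIcc_of_le (by linarith : t / 2 ≤ 1)] at hd
    rw [gapN_eq ht0 hd.2 (by linarith [hd.1])]
    ring
  have hq : Continuous fun d => (1 - d ^ 2) * (2 * d - t) * quot t d := by
    unfold quot; fun_prop
  rw [z1, z2, zero_add, integral_eq_sub_of_hasDerivAt (fun d _ => hasDerivAt_innerG t d)
    (hq.intervalIntegrable _ _)]
  congr 1
  simp only [innerG, innerP, quot]
  ring

/-- `IntegralPin`. -/
theorem integralPin : IntegralPin := by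
  have hc : Continuous fun q : ℝ × ℝ => gapN q.2 q.1 * (1 - q.1 ^ 2) :=
    (continuous_gapN.comp (continuous_snd.prodMk continuous_fst)).mul (by fun_prop)
  have h01 : uIoc (0 : ℝ) 1 = Ioc 0 1 := uIoc_of_le zero_le_one
  have hint : Integrable (Function.uncurry fun d t => gapN t d * (1 - d ^ 2))
      ((volume.restrict (uIoc (0 : ℝ) 1)).prod (volume.restrict (Ioc (0 : ℝ) 2))) := by
    rw [h01, Measure.prod_restrict]
    exact (hc.continuousOn.integrableOn_compact (μ := volume.prod volume)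
      ((isCompact_Icc (a := (0 : ℝ)) (b := 1)).prod (isCompact_Icc (a := (0 : ℝ)) (b := 2)))).mono_set
        (prod_mono Ioc_subset_Icc_self Ioc_subset_Icc_self)
  unfold IntegralPin gapInt
  simp only [← intervalIntegral.integral_mul_const]
  simp only [intervalIntegral.integral_of_le (by norm_num : (0 : ℝ) ≤ 2)]
  rw [intervalIntegral_integral_swap hint, ← intervalIntegral.integral_of_le (by norm_num : (0 : ℝ) ≤ 2),
    ← outer_value]
  refine integral_congr fun t ht => ?_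
  rw [uIcc_of_le (by norm_num : (0 : ℝ) ≤ 2)] at ht
  exact inner_value ht.1 ht.2

end Vale.Agent.P219.CH.Five
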