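import Vale.Agent.P219.Five.LinesReal
import Vale.Agent.P219.Six.Flow
import Vale.Agent.P219.Six.PairPoint

/-!
# P219, dimension five: the set is bounded below along the geodesics from its points
-/

noncomputable section

open MeasureTheory Set Filter Topology Matrix
open scoped ENNReal

namespace Vale.Agent.P219.CH.Five

open Six (Phase IsExp vnorm fibre liou volM flow slp cosv acos)

variable {G : (Fin 5 → ℝ) → Matrix (Fin 5) (Fin 5) ℝ} {D : (Fin 5 → ℝ) → (Fin 5 → ℝ) → ℝ} {e : Phase 5 → (Fin 5 → ℝ)} {u : (Fin 5 → ℝ) → ℝ}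

lemma lintegral_liou (h : IsCH G D) {K : Phase 5 → ℝ≥0∞} (hK : Measurable K) :
    ∫⁻ p, K p ∂liou G = ∫⁻ x, (∫⁻ v, ENNReal.ofReal (fibre G x v) * K (x, v)) ∂volM G := by
  have hf : Measurable fun p : Phase 5 => fibre G p.1 p.2 :=
    ((h.continuous_dens.comp continuous_fst).mul
      ((h.continuous_vnorm.pow 2).div_const 2).neg.rexp).measurable
  have hd : Measurable fun p : Phase 5 => ENNReal.ofReal (dens G p.1 * fibre G p.1 p.2) :=
    ((h.continuous_dens.measurable.comp measurable_fst).mul hf).ennreal_ofReal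
  rw [liou, lintegral_withDensity_eq_lintegral_mul _ hd hK, Measure.volume_eq_prod,
    lintegral_prod _ (hd.mul hK).aemeasurable, volM,
    lintegral_withDensity_eq_lintegral_mul _ h.continuous_dens.measurable.ennreal_ofReal
      (Measurable.lintegral_prod_right' (f := fun p : Phase 5 =>
        ENNReal.ofReal (fibre G p.1 p.2) * K p) (hf.ennreal_ofReal.mul hK))]
  refine lintegral_congr fun x => ?_
  simp only [Pi.mul_apply, ENNReal.ofReal_mul (h.dens_pos x).le, mul_assoc]
  exact lintegral_const_mul _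
    (((hf.comp measurable_prodMk_left).ennreal_ofReal).mul (hK.comp measurable_prodMk_left))

lemma measurable_kern : Measurable fun z : ℝ × ℝ => kern z.1 z.2 := by
  unfold kern prof profD; fun_prop

/-- The kernel seen from the centre `x`. -/
def kerAt (G : (Fin 5 → ℝ) → Matrix (Fin 5) (Fin 5) ℝ) (D : (Fin 5 → ℝ) → (Fin 5 → ℝ) → ℝ) (u : (Fin 5 → ℝ) → ℝ) (s ε : ℝ)
    (x y : (Fin 5 → ℝ)) : ℝ≥0∞ :=
  ENNReal.ofReal (kern (s * Real.sqrt (2 * D x y + ε ^ 2)) (acos G D u x y)) *
    ENNReal.ofReal (conorm G y (cd u y))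

lemma measurable_kerAt (h : IsCH G D) (hu : ContDiff ℝ 1 u) (s ε : ℝ) :
    Measurable fun w : Phase 5 => kerAt G D u s ε w.1 w.2 :=
  (measurable_kern.comp ((((continuous_const.mul h.continuous_D).add continuous_const).sqrt.measurable.const_mul
    s).prodMk (h.measurable_acos hu))).ennreal_ofReal.mul
      ((h.continuous_conorm_cd hu).measurable.comp measurable_snd).ennreal_ofReal

attribute [local irreducible] kerAt

lemma lintegral_kerAt (h : IsCH G D) (hu : ContDiff ℝ 1 u) (s ε : ℝ) (x : (Fin 5 → ℝ)) :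
    ∫⁻ y, kerAt G D u s ε x y ∂volM G =
      ∫⁻ y, ENNReal.ofReal (kern (s * Real.sqrt (2 * D x y + ε ^ 2)) (acos G D u x y))
        ∂Sharp.pm G u := by
  have hk : Measurable fun y =>
      ENNReal.ofReal (kern (s * Real.sqrt (2 * D x y + ε ^ 2)) (acos G D u x y)) :=
    (measurable_kern.comp (((((h.continuous_D_left x).const_mul 2).add
      continuous_const).sqrt.measurable.const_mul s).prodMk
        ((h.measurable_acos hu).comp measurable_prodMk_left))).ennreal_ofReal
  rw [volM, lintegral_withDensity_eq_lintegral_mul _ h.continuous_dens.measurable.ennreal_ofReal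
      (show Measurable fun y => kerAt G D u s ε x y from
        (measurable_kerAt h hu s ε).comp measurable_prodMk_left), Sharp.pm,
    lintegral_withDensity_eq_lintegral_mul _
      (show Measurable fun y => ENNReal.ofReal (conorm G y (cd u y) * dens G y) from
        ((h.continuous_conorm_cd hu).mul h.continuous_dens).measurable.ennreal_ofReal) hk]
  refine lintegral_congr fun y => ?_
  simp only [Pi.mul_apply, kerAt, ENNReal.ofReal_mul (conorm_nonneg _ _)]
  ring

/-- The shortfall at time `t` of a line through `q`. -/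
def lossAt (G : (Fin 5 → ℝ) → Matrix (Fin 5) (Fin 5) ℝ) (u : (Fin 5 → ℝ) → ℝ) (η s t : ℝ) (q : Phase 5) : ℝ≥0∞ :=
  {q | slp u q < 0}.indicator (fun q => ENNReal.ofReal
    ((gapN (s * t * vnorm G q.1 q.2) (cosv G u q) + slack η (s * t * vnorm G q.1 q.2)) *
      (vnorm G q.1 q.2 * conorm G q.1 (cd u q.1)))) q

lemma continuous_slp (hu : ContDiff ℝ 1 u) : Continuous (slp u) :=
  ((continuous_cd hu).comp continuous_fst).dotProduct continuous_snd

lemma measurable_slack (η : ℝ) : Measurable (slack η) :=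
  (measurable_const.indicator measurableSet_Iic).add (measurable_const.indicator measurableSet_Iio)

lemma measurable_cosv (h : IsCH G D) (hu : ContDiff ℝ 1 u) : Measurable (cosv G u) :=
  (continuous_slp hu).abs.measurable.div
    (((h.continuous_conorm_cd hu).comp continuous_fst).mul h.continuous_vnorm).measurable

lemma measurable_lossAt (h : IsCH G D) (hu : ContDiff ℝ 1 u) (η s : ℝ) :
    Measurable fun z : ℝ × Phase 5 => lossAt G u η s z.1 z.2 := by
  have hN : Measurable fun z : ℝ × Phase 5 => s * z.1 * vnorm G z.2.1 z.2.2 :=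
    ((measurable_const.mul measurable_fst).mul (h.continuous_vnorm.measurable.comp measurable_snd))
  have hm : Measurable fun z : ℝ × Phase 5 => ENNReal.ofReal
      ((gapN (s * z.1 * vnorm G z.2.1 z.2.2) (cosv G u z.2) +
        slack η (s * z.1 * vnorm G z.2.1 z.2.2)) *
        (vnorm G z.2.1 z.2.2 * conorm G z.2.1 (cd u z.2.1))) :=
    (((continuous_gapN.measurable.comp (hN.prodMk ((measurable_cosv h hu).comp measurable_snd))).add
      ((measurable_slack η).comp hN)).mul ((h.continuous_vnorm.measurable.comp measurable_snd).mul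
        ((h.continuous_conorm_cd hu).measurable.comp measurable_snd.fst))).ennreal_ofReal
  exact hm.indicator (((continuous_slp hu).measurable.comp measurable_snd) measurableSet_Iio)

attribute [local irreducible] lossAt

lemma cosv_mem (h : IsCH G D) (q : Phase 5) : cosv G u q ∈ Icc (0 : ℝ) 1 :=
  ⟨div_nonneg (abs_nonneg _) (mul_nonneg (conorm_nonneg _ _) (Real.sqrt_nonneg _)),
    div_le_one_of_le₀ (h.dotProduct_le q.1 (cd u q.1) q.2)
      (mul_nonneg (conorm_nonneg _ _) (Real.sqrt_nonneg _))⟩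

/-- The certificate at one time of a line. -/
lemma slope_le (h : IsCH G D) (he : IsExp G D e) {η δ s ε : ℝ} (hη : 0 < η) (hη1 : η < 1)
    (hgap : ∀ τ τ' d : ℝ, 0 ≤ τ → τ ≤ 3 → τ ≤ τ' → τ' ≤ τ + δ → d ∈ Icc (0 : ℝ) 1 →
      gapN τ' d ≤ gapN τ d + η)
    (hs : 0 < s) (hε : 0 < ε) (hsδ : s * ε ≤ δ) (hsη : s * ε ≤ η ^ 2 / 2) (p : Phase 5) {t : ℝ}
    (ht : 0 < t) :
    ENNReal.ofReal (2 * (1 - η)) * ENNReal.ofReal (-slp u (flow e t p)) ≤
      ENNReal.ofReal (s ^ 4) * (kerAt G D u s ε p.1 (Six.line e p t) *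
          ENNReal.ofReal ((t * vnorm G p.1 p.2) ^ 4 * vnorm G p.1 p.2)) +
        lossAt G u η s t (flow e t p) := by
  rcases le_or_gt 0 (slp u (flow e t p)) with h0 | h0
  · simp [ENNReal.ofReal_of_nonpos (neg_nonpos.2 h0)]
  have hN' : vnorm G (flow e t p).1 (flow e t p).2 = vnorm G p.1 p.2 := Six.vnorm_flow h he p t
  have hle := h.dotProduct_le (flow e t p).1 (cd u (flow e t p).1) (flow e t p).2
  rw [hN'] at hle
  obtain ⟨N, hN⟩ : ∃ z, z = vnorm G p.1 p.2 := ⟨_, rfl⟩
  obtain ⟨c, hc⟩ : ∃ z, z = conorm G (flow e t p).1 (cd u (flow e t p).1) := ⟨_, rfl⟩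
  obtain ⟨a, ha⟩ : ∃ z, z = slp u (flow e t p) := ⟨_, rfl⟩
  change |slp u (flow e t p)| ≤ _ at hle
  rw [← ha, ← hc, ← hN, abs_of_neg (ha ▸ h0)] at hle
  have ha0 : 0 < -a := by rw [ha]; linarith
  have hcN : 0 < c * N := ha0.trans_le hle
  have hc0 : 0 < c := pos_of_mul_pos_left hcN (hN ▸ Real.sqrt_nonneg _)
  have hN0 : 0 < N := pos_of_mul_pos_right hcN (hc ▸ conorm_nonneg _ _)
  have hcos : cosv G u (flow e t p) = -a / (c * N) := by
    rw [cosv, hN', ← ha, ← hc, ← hN, abs_of_neg (ha ▸ h0)]
  have hD : 2 * D p.1 (Six.line e p t) = (t * N) ^ 2 := by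
    rw [Six.dist_start h he, hN]; ring
  have hac : acos G D u p.1 (Six.line e p t) = cosv G u (flow e t p) := by
    have hnp : normalPart G D p.1 u (Six.line e p t) = t * a := by
      rw [ha, normalPart, pairing]
      change cd u (Six.line e p t) ⬝ᵥ grad G (D p.1) (Six.line e p t) = _
      rw [Six.grad_line h he, dotProduct_smul, smul_eq_mul]
      rfl
    rw [hcos, acos, hnp, hD, Real.sqrt_sq (by positivity), abs_mul, abs_of_pos ht,
      abs_of_neg (show a < 0 by linarith)]
    rw [show conorm G (Six.line e p t) (cd u (Six.line e p t)) = c from hc.symm]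
    field_simp
  have key := line_bound hη hη1 hgap (τ := s * t * N) (σ := s * ε) (d := cosv G u (flow e t p))
    (by positivity) (by positivity) hsδ hsη (cosv_mem h _)
  have hsq : Real.sqrt ((s * t * N) ^ 2 + (s * ε) ^ 2) =
      s * Real.sqrt ((t * N) ^ 2 + ε ^ 2) := by
    rw [show (s * t * N) ^ 2 + (s * ε) ^ 2 = s ^ 2 * ((t * N) ^ 2 + ε ^ 2) by ring,
      Real.sqrt_mul (sq_nonneg s), Real.sqrt_sq hs.le]
  rw [hsq] at key
  have hk : 0 ≤ kern (s * Real.sqrt ((t * N) ^ 2 + ε ^ 2)) (cosv G u (flow e t p)) :=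
    kern_nonneg (by positivity) (abs_le.2 ⟨by linarith [(cosv_mem (u := u) h (flow e t p)).1],
      (cosv_mem (u := u) h (flow e t p)).2⟩)
  have key2 := mul_le_mul_of_nonneg_right key hcN.le
  rw [show 2 * (1 - η) * cosv G u (flow e t p) * (c * N) = 2 * (1 - η) * -a by
    rw [hcos]; field_simp] at key2
  rw [← ha, ← ENNReal.ofReal_mul (by linarith), kerAt, hac, hD, ← hN,
    show conorm G (Six.line e p t) (cd u (Six.line e p t)) = c from hc.symm,
    lossAt, indicator_of_mem (show flow e t p ∈ {q | slp u q < 0} from h0), hN', ← hN, ← hc,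
    ← ENNReal.ofReal_mul hk, ← ENNReal.ofReal_mul (mul_nonneg hk hc0.le),
    ← ENNReal.ofReal_mul (by positivity), ← ENNReal.ofReal_add (by positivity)
      (mul_nonneg (add_nonneg (gapN_nonneg _ _) (slack_nonneg hη.le _)) (by positivity))]
  refine ENNReal.ofReal_le_ofReal (key2.trans_eq ?_)
  ring

/-- A compactly supported function descends to zero along every line from a point. -/
lemma le_lintegral_slope (h : IsCH G D) (he : IsExp G D e) {o : (Fin 5 → ℝ)} {R : ℝ}
    (hu : Comp {y | D o y ≤ R} u) (p : Phase 5) (hp : p.2 ≠ 0) :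
    ENNReal.ofReal (u p.1) ≤ ∫⁻ t in Ioi (0 : ℝ), ENNReal.ofReal (-slp u (flow e t p)) := by
  obtain ⟨B, hB⟩ := (h.proper o R).bddAbove_image (h.contDiff_D p.1).continuous.continuousOn
  have hN := h.vnorm_pos (x := p.1) hp
  obtain ⟨T, hT⟩ : ∃ T, T = Real.sqrt (2 * |B|) / vnorm G p.1 p.2 + 1 := ⟨_, rfl⟩
  have hT0 : 0 < T := by rw [hT]; positivity
  have hend : u (Six.line e p T) = 0 := by
    by_contra hne
    have hmem : D o (Six.line e p T) ≤ R := hu.2.1 (subset_tsupport _ hne)
    have h1 := (hB ⟨_, hmem, rfl⟩).trans (le_abs_self B)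
    rw [Six.dist_start h he] at h1
    have h2 : T * vnorm G p.1 p.2 ≤ Real.sqrt (2 * |B|) :=
      Real.le_sqrt_of_sq_le (by rw [mul_pow]; linarith)
    rw [hT, add_mul, div_mul_cancel₀ _ hN.ne'] at h2
    linarith
  have hd : ∀ t, HasDerivAt (fun t => u (Six.line e p t)) (slp u (flow e t p)) t := fun t => by
    have h1 := ((hu.1.differentiable one_ne_zero) (Six.line e p t)).hasFDerivAt.comp_hasDerivAt t
      (Six.hasDerivAt_line_flow he p t)
    refine h1.congr_deriv ?_
    exact (cd_dotProduct u (Six.line e p t) (flow e t p).2).symm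
  have hc : Continuous fun t => -slp u (flow e t p) :=
    ((continuous_slp hu.1).comp
      ((Six.continuous_flow he).comp (continuous_id.prodMk continuous_const))).neg
  have hftc : ∫ t in (0 : ℝ)..T, -slp u (flow e t p) = u p.1 := by
    rw [intervalIntegral.integral_eq_sub_of_hasDerivAt (f := fun t => -u (Six.line e p t))
      (fun t _ => (hd t).neg) (hc.intervalIntegrable _ _), hend, Six.line_zero he h]
    simp
  rw [← hftc, intervalIntegral.integral_of_le hT0.le]
  refine le_trans ?_ (lintegral_mono_set (Ioc_subset_Ioi_self : Ioc (0 : ℝ) T ⊆ Ioi 0))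
  calc ENNReal.ofReal (∫ t in Ioc 0 T, -slp u (flow e t p))
      ≤ ENNReal.ofReal (∫ t in Ioc 0 T, max (-slp u (flow e t p)) 0) :=
        ENNReal.ofReal_le_ofReal (setIntegral_mono (hc.integrableOn_Ioc)
          ((hc.max continuous_const).integrableOn_Ioc) fun t => le_max_left _ _)
    _ = ∫⁻ t in Ioc 0 T, ENNReal.ofReal (max (-slp u (flow e t p)) 0) :=
        ofReal_integral_eq_lintegral_ofReal (hc.max continuous_const).integrableOn_Ioc
          (Eventually.of_forall fun t => le_max_right _ _)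
    _ = _ := lintegral_congr fun t => by simp

/-- A dilation in a lower integral over the half line. -/
lemma lintegral_comp_mul {a : ℝ} (ha : 0 < a) (k : ℝ → ℝ≥0∞) :
    ∫⁻ t in Ioi (0 : ℝ), ENNReal.ofReal a * k (a * t) = ∫⁻ τ in Ioi (0 : ℝ), k τ := by
  have himg : (fun t => a * t) '' Ioi (0 : ℝ) = Ioi 0 := by
    rw [image_mul_left_Ioi ha, mul_zero]
  have := lintegral_image_eq_lintegral_abs_deriv_mul
    (measurableSet_Ioi (a := (0 : ℝ))) (f := fun t => a * t) (f' := fun _ => a)
    (fun t _ => ((hasDerivAt_id t).const_mul a).hasDerivWithinAt.congr_deriv (mul_one a))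
    (fun s _ t _ hst => mul_left_cancel₀ ha.ne' hst) k
  rw [himg, abs_of_pos ha] at this
  exact this.symm

/-- The shortfall in one fibre. -/
lemma fibre_loss_le (hmom : MomentPin) (hint : IntegralPin) (h : IsCH G D) {η s : ℝ}
    (hη : 0 < η) (hs : 0 < s) (x : (Fin 5 → ℝ)) :
    ∫⁻ v, ENNReal.ofReal (fibre G x v) * (∫⁻ t in Ioi (0 : ℝ), lossAt G u η s t (x, v)) ≤
      ENNReal.ofReal (mass5 * (1 / 5 + 5 * η) / s) * ENNReal.ofReal (conorm G x (cd u x)) := by
  obtain ⟨g, hg⟩ : ∃ g : ℝ → ℝ, g = fun c => gapInt (min (max c 0) 1) + 5 * η := ⟨_, rfl⟩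
  have hgc : Continuous g := hg ▸ (continuous_gapInt.comp
    ((continuous_id.max continuous_const).min continuous_const)).add continuous_const
  have hg0 : ∀ c, 0 ≤ g c := fun c => by
    rw [hg]
    exact add_nonneg (intervalIntegral.integral_nonneg zero_le_two fun τ _ => gapN_nonneg τ _)
      (by positivity)
  obtain ⟨Bg, hBg⟩ := (isCompact_Icc (a := (0 : ℝ)) (b := 1)).bddAbove_image
    continuous_gapInt.continuousOn
  have hgB : ∀ c, g c ≤ Bg + 5 * η := fun c => by
    rw [hg]
    exact add_le_add (hBg ⟨_, ⟨le_min (le_max_right _ _) zero_le_one, min_le_right _ _⟩, rfl⟩)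
      le_rfl
  have hgint : ∫ c in (0 : ℝ)..1, g c * (1 - c ^ 2) = 4 / 15 + 10 / 3 * η := by
    have e1 : EqOn (fun c => g c * (1 - c ^ 2))
        (fun c => gapInt c * (1 - c ^ 2) + 5 * η * (1 - c ^ 2)) (uIcc 0 1) := fun c hc => by
      rw [uIcc_of_le zero_le_one] at hc
      simp only [hg, max_eq_left hc.1, min_eq_left hc.2]
      ring
    rw [intervalIntegral.integral_congr e1, intervalIntegral.integral_add
      ((show Continuous fun c => gapInt c * (1 - c ^ 2) from
        continuous_gapInt.mul (by fun_prop)).intervalIntegrable _ _)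
      ((by fun_prop : Continuous fun c : ℝ => 5 * η * (1 - c ^ 2)).intervalIntegrable _ _),
      intervalIntegral.integral_const_mul, hint]
    norm_num
    ring
  have hm5 : 0 ≤ mass5 := by unfold mass5; positivity
  obtain ⟨c, hc⟩ : ∃ z, z = conorm G x (cd u x) := ⟨_, rfl⟩
  have hc0 : 0 ≤ c := hc ▸ conorm_nonneg _ _
  obtain ⟨-, hmg⟩ := hmom G x (cd u x) (h.posDef x)
  have hv : ∀ v, ∫⁻ t in Ioi (0 : ℝ), lossAt G u η s t (x, v) ≤
      ENNReal.ofReal (c / s) * {v | cd u x ⬝ᵥ v < 0}.indicator
        (fun v => ENNReal.ofReal (g (|cd u x ⬝ᵥ v| / (c * vnorm G x v)))) v := by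
    intro v
    by_cases hneg : cd u x ⬝ᵥ v < 0
    swap
    · simp [lossAt, slp, hneg]
    have hle := h.dotProduct_le x (cd u x) v
    rw [abs_of_neg hneg, ← hc] at hle
    have hN0 : 0 < vnorm G x v := pos_of_mul_pos_right ((neg_pos.2 hneg).trans_le hle) hc0
    have hd := cosv_mem (u := u) h (x, v)
    have hda : cosv G u (x, v) = |cd u x ⬝ᵥ v| / (c * vnorm G x v) := by
      rw [cosv, hc]; rfl
    rw [hda] at hd
    rw [indicator_of_mem (show v ∈ {v | cd u x ⬝ᵥ v < 0} from hneg)]
    obtain ⟨N, hN⟩ : ∃ z, z = vnorm G x v := ⟨_, rfl⟩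
    obtain ⟨d, hdd⟩ : ∃ z, z = |cd u x ⬝ᵥ v| / (c * vnorm G x v) := ⟨_, rfl⟩
    rw [← hN] at hN0
    rw [← hdd] at hd hda ⊢
    have e1 : ∀ t ∈ Ioi (0 : ℝ), lossAt G u η s t (x, v) =
        ENNReal.ofReal (c / s) * (ENNReal.ofReal (s * N) *
          ENNReal.ofReal (gapN (s * N * t) d + slack η (s * N * t))) := fun t _ => by
      rw [lossAt, indicator_of_mem (show (x, v) ∈ {q | slp u q < 0} from hneg), hda, ← hN, ← hc,
        ← ENNReal.ofReal_mul (by positivity), ← ENNReal.ofReal_mul (by positivity)]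
      congr 1
      rw [show s * t * N = s * N * t by ring]
      field_simp
    rw [setLIntegral_congr_fun measurableSet_Ioi e1, lintegral_const_mul' _ _ ENNReal.ofReal_ne_top]
    refine mul_le_mul_right ?_ _
    rw [lintegral_comp_mul (mul_pos hs hN0) (fun τ => ENNReal.ofReal (gapN τ d + slack η τ))]
    refine (lintegral_gap_le hη hd.2).trans (ENNReal.ofReal_le_ofReal ?_)
    rw [hg]; simp [max_eq_left hd.1, min_eq_left hd.2]
  refine (lintegral_mono fun v => mul_le_mul_right (hv v) _).trans ?_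
  simp only [mul_left_comm (ENNReal.ofReal (fibre G x _))]
  rw [lintegral_const_mul' _ _ ENNReal.ofReal_ne_top, hc]
  refine (mul_le_mul_right (hmg g (Bg + 5 * η) hgc.measurable hg0 hgB) _).trans ?_
  rw [hgint, ← hc, ← ENNReal.ofReal_mul (by positivity), ← ENNReal.ofReal_mul (by positivity)]
  refine ENNReal.ofReal_le_ofReal ?_
  calc c / s * (mass5 * (3 / 4 * (4 / 15 + 10 / 3 * η)))
      = c / s * (mass5 * (1 / 5 + 5 / 2 * η)) := by ring
    _ ≤ c / s * (mass5 * (1 / 5 + 5 * η)) := mul_le_mul_of_nonneg_left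
        (mul_le_mul_of_nonneg_left (by linarith) hm5) (by positivity)
    _ = _ := by ring

/-- The whole shortfall is the perimeter times the value of the certificate. -/
lemma lintegral_loss_le (hmom : MomentPin) (hint : IntegralPin) (h : IsCH G D) (he : IsExp G D e)
    (hu : ContDiff ℝ 1 u) (hP : Integrable fun y => conorm G y (cd u y) * dens G y) {η s : ℝ}
    (hη : 0 < η) (hs : 0 < s) :
    ∫⁻ p, (∫⁻ t in Ioi (0 : ℝ), lossAt G u η s t (flow e t p)) ∂liou G ≤
      ENNReal.ofReal (per G u * (mass5 * (1 / 5 + 5 * η)) / s) := by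
  have hL := measurable_lossAt h hu η s
  have hF : Measurable fun z : Phase 5 × ℝ => lossAt G u η s z.2 (flow e z.2 z.1) :=
    hL.comp (measurable_snd.prodMk
      ((Six.continuous_flow he).measurable.comp measurable_swap))
  have hflow : ∀ t, ∫⁻ p, lossAt G u η s t (flow e t p) ∂liou G =
      ∫⁻ p, lossAt G u η s t p ∂liou G :=
    fun t => Six.lintegral_flow h he t (hL.comp measurable_prodMk_left)
  have hm : Measurable fun p => ∫⁻ t in Ioi (0 : ℝ), lossAt G u η s t p :=
    (hL.comp measurable_swap).lintegral_prod_right'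
  rw [lintegral_lintegral_swap hF.aemeasurable]
  simp only [hflow]
  rw [← lintegral_lintegral_swap
      (f := fun p t => lossAt G u η s t p) (hL.comp measurable_swap).aemeasurable,
    lintegral_liou h hm]
  have hm5 : 0 ≤ mass5 := by unfold mass5; positivity
  have hfib := fibre_loss_le (u := u) hmom hint h (η := η) (s := s) hη hs
  refine (lintegral_mono hfib).trans (le_of_eq ?_)
  rw [lintegral_const_mul' _ _ ENNReal.ofReal_ne_top, volM,
    lintegral_withDensity_eq_lintegral_mul _ h.continuous_dens.measurable.ennreal_ofReal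
      (h.continuous_conorm_cd hu).measurable.ennreal_ofReal]
  simp only [Pi.mul_apply, ← ENNReal.ofReal_mul (h.dens_pos _).le]
  simp only [mul_comm (dens G _) (conorm G _ _)]
  rw [← ofReal_integral_eq_lintegral_ofReal hP
      (Eventually.of_forall fun y => mul_nonneg (conorm_nonneg _ _) (h.dens_pos y).le),
    ← per, ← ENNReal.ofReal_mul (by positivity)]
  congr 1
  ring

/-- `LinesPin` from its parts. -/
theorem linesAssembly : LinesAssemblyPin := by
  intro hpol hmom hint G D e h he η s₁ hη hη1 hs₁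
  obtain ⟨δ, hδ, hgap⟩ := exists_gap_step hη
  refine ⟨min δ (η ^ 2 / 2) / s₁, div_pos (lt_min hδ (by positivity)) hs₁,
    fun s o R u B hs hs1 hu hB hrow => ?_⟩
  obtain ⟨ε, hε⟩ : ∃ z, z = min δ (η ^ 2 / 2) / s₁ := ⟨_, rfl⟩
  rw [← hε] at hrow
  have hε0 : 0 < ε := hε ▸ div_pos (lt_min hδ (by positivity)) hs₁
  have hsε : s * ε ≤ min δ (η ^ 2 / 2) :=
    (mul_le_mul_of_nonneg_right hs1 hε0.le).trans_eq (by rw [hε]; field_simp)
  have hK := h.proper o R
  have hm5 : 0 ≤ mass5 := by unfold mass5; positivity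
  have hp5 : 0 ≤ polar5 := by unfold polar5; positivity
  have hu0 : ∀ y, 0 ≤ u y := fun y => (hu.2.2 y).1
  have hu1 : ∀ y, u y ≤ 1 := fun y => (hu.2.2 y).2
  have hkm := measurable_kerAt h hu.1 s ε
  have hP : Integrable fun y => conorm G y (cd u y) * dens G y := by
    simpa using h.integrable_mul_conorm hK hu (continuous_const (y := (1 : ℝ)))
  set PK : Phase 5 × ℝ → ℝ≥0∞ := fun z => kerAt G D u s ε z.1.1 (Six.line e z.1 z.2) *
    ENNReal.ofReal ((z.2 * vnorm G z.1.1 z.1.2) ^ 4 * vnorm G z.1.1 z.1.2) with hPKd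
  have hNm : Measurable fun z : Phase 5 × ℝ => vnorm G z.1.1 z.1.2 :=
    h.continuous_vnorm.measurable.comp measurable_fst
  have hPK : Measurable PK :=
    (hkm.comp ((measurable_fst.comp measurable_fst).prodMk he.continuous_line.measurable)).mul
      (((measurable_snd.mul hNm).pow_const 4).mul hNm).ennreal_ofReal
  have hline : ∀ p : Phase 5, p.2 ≠ 0 →
      ENNReal.ofReal (2 * (1 - η) * u p.1 ^ 2) ≤
        ENNReal.ofReal (s ^ 4 * u p.1) * (∫⁻ t in Ioi (0 : ℝ), PK (p, t)) +
          ∫⁻ t in Ioi (0 : ℝ), lossAt G u η s t (flow e t p) := by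
    intro p hp
    have hsl : Measurable fun t => ENNReal.ofReal (-slp u (flow e t p)) :=
      ((continuous_slp hu.1).comp ((Six.continuous_flow he).comp
        (continuous_id.prodMk continuous_const))).neg.measurable.ennreal_ofReal
    have hPKt : Measurable fun t => PK (p, t) := hPK.comp measurable_prodMk_left
    calc ENNReal.ofReal (2 * (1 - η) * u p.1 ^ 2)
        = ENNReal.ofReal (u p.1) * (ENNReal.ofReal (2 * (1 - η)) * ENNReal.ofReal (u p.1)) := by
          rw [← ENNReal.ofReal_mul (by linarith), ← ENNReal.ofReal_mul (hu0 _)]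
          congr 1
          ring
      _ ≤ ENNReal.ofReal (u p.1) * (∫⁻ t in Ioi (0 : ℝ),
            (ENNReal.ofReal (s ^ 4) * PK (p, t) + lossAt G u η s t (flow e t p))) := by
          refine mul_le_mul_right ?_ _
          refine (mul_le_mul_right (le_lintegral_slope h he hu p hp) _).trans ?_
          rw [← lintegral_const_mul _ hsl]
          exact setLIntegral_mono' measurableSet_Ioi fun t ht => slope_le h he hη hη1 hgap hs hε0
            (hsε.trans (min_le_left _ _)) (hsε.trans (min_le_right _ _)) p ht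
      _ ≤ _ := by
          rw [lintegral_add_left (hPKt.const_mul _), lintegral_const_mul _ hPKt, mul_add,
            ← mul_assoc, ← ENNReal.ofReal_mul (hu0 _), mul_comm (u p.1)]
          refine add_le_add le_rfl (mul_le_of_le_one_left' ?_)
          exact ENNReal.ofReal_le_one.2 (hu1 _)
  have hL : Measurable fun p : Phase 5 => ENNReal.ofReal (2 * (1 - η) * u p.1 ^ 2) :=
    ((((hu.1.continuous.measurable.comp measurable_fst).pow_const 2).const_mul _)).ennreal_ofReal
  have hus : Measurable fun x => ENNReal.ofReal (s ^ 4 * u x) :=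
    (hu.1.continuous.measurable.const_mul _).ennreal_ofReal
  have hPi : Measurable fun p : Phase 5 =>
      ENNReal.ofReal (s ^ 4 * u p.1) * ∫⁻ t in Ioi (0 : ℝ), PK (p, t) :=
    (hus.comp measurable_fst).mul hPK.lintegral_prod_right'
  have hvd : Integrable fun x => u x * dens G x := Comp.integrable hK hu h.continuous_dens
  have hfirst : ∫⁻ p, ENNReal.ofReal (s ^ 4 * u p.1) * (∫⁻ t in Ioi (0 : ℝ), PK (p, t)) ∂liou G ≤
      ENNReal.ofReal (s ^ 4 * polar5 * (B * vol G u)) := by
    rw [lintegral_liou h hPi]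
    have hx : ∀ x, ∫⁻ v, ENNReal.ofReal (fibre G x v) *
        (ENNReal.ofReal (s ^ 4 * u x) * ∫⁻ t in Ioi (0 : ℝ), PK ((x, v), t)) ≤
        ENNReal.ofReal (s ^ 4 * polar5 * B) * ENNReal.ofReal (u x) := by
      intro x
      simp only [mul_left_comm (ENNReal.ofReal (fibre G x _))]
      rw [lintegral_const_mul' _ _ ENNReal.ofReal_ne_top]
      by_cases hx : D o x ≤ R
      · refine (mul_le_mul_right ((hpol G D e h he x _ (hkm.comp measurable_prodMk_left)).trans
          (mul_le_mul_right ((lintegral_kerAt h hu.1 s ε x).trans_le (hrow x hx)) _)) _).trans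
            (le_of_eq ?_)
        rw [← ENNReal.ofReal_mul hp5, ← ENNReal.ofReal_mul (mul_nonneg (by positivity) (hu0 x)),
          ← ENNReal.ofReal_mul (by positivity)]
        congr 1
        ring
      · have : u x = 0 := by
          by_contra hne
          exact hx (hu.2.1 (subset_tsupport _ hne))
        simp [this]
    refine (lintegral_mono hx).trans (le_of_eq ?_)
    rw [lintegral_const_mul' _ _ ENNReal.ofReal_ne_top, volM,
      lintegral_withDensity_eq_lintegral_mul _ h.continuous_dens.measurable.ennreal_ofReal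
        hu.1.continuous.measurable.ennreal_ofReal]
    simp only [Pi.mul_apply, ← ENNReal.ofReal_mul (h.dens_pos _).le, mul_comm (dens G _) (u _)]
    rw [← ofReal_integral_eq_lintegral_ofReal hvd
        (Eventually.of_forall fun y => mul_nonneg (hu0 y) (h.dens_pos y).le),
      ← vol, ← ENNReal.ofReal_mul (by positivity)]
    congr 1
    ring
  have hsq : Integrable fun x => u x ^ 2 * dens G x := by
    simpa [sq, mul_assoc] using Comp.integrable hK hu (hu.1.continuous.mul h.continuous_dens)
  have hlhs : ∫⁻ p, ENNReal.ofReal (2 * (1 - η) * u p.1 ^ 2) ∂liou G =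
      ENNReal.ofReal (2 * (1 - η) * mass5 * (vol G u - gap G u)) := by
    rw [lintegral_liou h hL]
    have e1 : ∀ x, ∫⁻ v, ENNReal.ofReal (fibre G x v) * ENNReal.ofReal (2 * (1 - η) * u x ^ 2) =
        ENNReal.ofReal (2 * (1 - η) * mass5) * ENNReal.ofReal (u x ^ 2) := fun x => by
      rw [lintegral_mul_const' _ _ ENNReal.ofReal_ne_top, (hmom G x 0 (h.posDef x)).1,
        ← ENNReal.ofReal_mul hm5, ← ENNReal.ofReal_mul (mul_nonneg (by linarith) hm5)]
      congr 1
      ring
    simp only [e1]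
    rw [lintegral_const_mul' _ _ ENNReal.ofReal_ne_top, volM,
      lintegral_withDensity_eq_lintegral_mul _ h.continuous_dens.measurable.ennreal_ofReal
        (show Measurable fun x => ENNReal.ofReal (u x ^ 2) from
          (hu.1.continuous.measurable.pow_const 2).ennreal_ofReal)]
    simp only [Pi.mul_apply, ← ENNReal.ofReal_mul (h.dens_pos _).le,
      mul_comm (dens G _) (u _ ^ 2)]
    have e2 : ∫ x, u x ^ 2 * dens G x = vol G u - gap G u := by
      have hg : Integrable fun x => u x * (1 - u x) * dens G x :=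
        (hvd.sub hsq).congr (Eventually.of_forall fun x => by simp only [Pi.sub_apply]; ring)
      rw [vol, gap, ← integral_sub hvd hg]
      exact integral_congr_ae (Eventually.of_forall fun x => by simp only; ring)
    rw [← ofReal_integral_eq_lintegral_ofReal hsq
        (Eventually.of_forall fun y => mul_nonneg (sq_nonneg _) (h.dens_pos y).le), e2,
      ← ENNReal.ofReal_mul (mul_nonneg (by linarith) hm5)]
  have hall := (lintegral_mono_ae ((Six.ae_snd_ne_zero (by norm_num : (5 : ℕ) ≠ 0)).mono hline)).trans_eq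
    (lintegral_add_left (μ := liou G) hPi _)
  rw [hlhs] at hall
  have hall2 := hall.trans (add_le_add hfirst (lintegral_loss_le hmom hint h he hu.1 hP hη hs))
  have hper := h.per_nonneg u
  have hvol : 0 ≤ vol G u := integral_nonneg fun y => mul_nonneg (hu0 y) (h.dens_pos y).le
  rwa [← ENNReal.ofReal_add (by positivity) (by positivity),
    ENNReal.ofReal_le_ofReal_iff (by positivity)] at hall2

end Vale.Agent.P219.CH.Five
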