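import Vale.Agent.P219.Five.Defs

/-!
# P219, dimension five: the certificate along one line
-/

noncomputable section

open MeasureTheory Set Filter Topology
open scoped ENNReal

namespace Vale.Agent.P219.CH.Five

/-- The error allowed at distance `τ`. -/
def slack (η τ : ℝ) : ℝ := (Iic 3).indicator (fun _ => η) τ + (Iio η).indicator (fun _ => 2) τ

lemma slack_nonneg {η : ℝ} (hη : 0 ≤ η) (τ : ℝ) : 0 ≤ slack η τ :=
  add_nonneg (indicator_nonneg (fun _ _ => hη) τ) (indicator_nonneg (fun _ _ => zero_le_two) τ)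

lemma gapN_nonneg (t d : ℝ) : 0 ≤ gapN t d := le_max_right _ _

lemma continuous_gapN : Continuous fun z : ℝ × ℝ => gapN z.1 z.2 := by
  unfold gapN line quot
  refine ((continuous_const.mul continuous_snd).sub ?_).max continuous_const
  refine (continuous_const.mul continuous_snd).add (Continuous.div (by fun_prop) (by fun_prop) ?_)
  intro z
  have : (0 : ℝ) ≤ max z.1 0 := le_max_right _ _
  positivity

lemma continuous_gapInt : Continuous gapInt :=
  intervalIntegral.continuous_parametric_intervalIntegral_of_continuous'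
    (f := fun d t => gapN t d) (continuous_gapN.comp continuous_swap) 0 2

lemma gapN_eq_zero {t d : ℝ} (ht : 0 < t) (hd : d ≤ 1) (h : 2 * d ≤ t) : gapN t d = 0 := by
  rw [gapN, max_eq_left ht.le, line_eq ht]
  exact max_eq_right (by linarith [two_mul_le ht hd h])

lemma gapN_eq_zero' {t d : ℝ} (ht : 2 ≤ t) (hd : d ≤ 1) : gapN t d = 0 :=
  gapN_eq_zero (by linarith) hd (by linarith)

/-- The modulus of continuity of the shortfall. -/
lemma exists_gap_step {η : ℝ} (hη : 0 < η) :
    ∃ δ : ℝ, 0 < δ ∧ ∀ τ τ' d : ℝ, 0 ≤ τ → τ ≤ 3 → τ ≤ τ' → τ' ≤ τ + δ → d ∈ Icc (0 : ℝ) 1 →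
      gapN τ' d ≤ gapN τ d + η := by
  have hu := (((isCompact_Icc (a := (0 : ℝ)) (b := 4)).prod
    (isCompact_Icc (a := (0 : ℝ)) (b := 1))).uniformContinuousOn_of_continuous
      continuous_gapN.continuousOn)
  rw [Metric.uniformContinuousOn_iff] at hu
  obtain ⟨δ, hδ, hd⟩ := hu η hη
  refine ⟨min (δ / 2) 1, lt_min (by linarith) one_pos, fun τ τ' d h0 h3 h1 h2 hd' => ?_⟩
  have hb := min_le_left (δ / 2) (1 : ℝ)
  have hc := min_le_right (δ / 2) (1 : ℝ)
  have hlt : dist (τ', d) (τ, d) < δ := by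
    rw [Prod.dist_eq, dist_self, Real.dist_eq, abs_of_nonneg (by linarith)]
    exact max_lt (by linarith) hδ
  have := hd (τ', d) ⟨⟨by linarith, by linarith⟩, hd'⟩ (τ, d) ⟨⟨h0, by linarith⟩, hd'⟩ hlt
  rw [Real.dist_eq] at this
  linarith [(abs_lt.1 this).2]

/-- The pointwise inequality along a line. -/
theorem line_bound {η δ τ σ d : ℝ} (hη : 0 < η) (hη1 : η < 1)
    (hgap : ∀ τ τ' d : ℝ, 0 ≤ τ → τ ≤ 3 → τ ≤ τ' → τ' ≤ τ + δ → d ∈ Icc (0 : ℝ) 1 →
      gapN τ' d ≤ gapN τ d + η)
    (hτ : 0 ≤ τ) (hσ : 0 < σ) (hσδ : σ ≤ δ) (hση : σ ≤ η ^ 2 / 2) (hd : d ∈ Icc (0 : ℝ) 1) :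
    2 * (1 - η) * d ≤
      τ ^ 4 * kern (Real.sqrt (τ ^ 2 + σ ^ 2)) d + (gapN τ d + slack η τ) := by
  obtain ⟨τ', hτ'⟩ : ∃ z, z = Real.sqrt (τ ^ 2 + σ ^ 2) := ⟨_, rfl⟩
  rw [← hτ']
  have hsq : τ' ^ 2 = τ ^ 2 + σ ^ 2 := by rw [hτ']; exact Real.sq_sqrt (by positivity)
  have hpos : 0 < τ' := by rw [hτ']; positivity
  have hle : τ ≤ τ' := hτ' ▸ Real.le_sqrt_of_sq_le (by nlinarith)
  have hle' : τ' ≤ τ + σ := hτ' ▸ (Real.sqrt_le_iff.2 ⟨by linarith, by nlinarith⟩)
  have hk : 0 ≤ kern τ' d := kern_nonneg hpos (abs_le.2 ⟨by linarith [hd.1], hd.2⟩)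
  have hg := gapN_nonneg τ d
  rcases lt_or_ge τ η with hsmall | hbig
  · have h2 : 2 ≤ slack η τ := by
      rw [slack, indicator_of_mem (show τ ∈ Iio η from hsmall)]
      exact le_add_of_nonneg_left (indicator_nonneg (fun _ _ => hη.le) τ)
    have : (1 - η) * d ≤ 1 * 1 := mul_le_mul (by linarith) hd.2 hd.1 zero_le_one
    have : 0 ≤ τ ^ 4 * kern τ' d := by positivity
    linarith
  · have hτ0 : 0 < τ := hη.trans_le hbig
    have h4 : (1 - η) * τ' ^ 4 ≤ τ ^ 4 := by
      have hs : σ ^ 2 ≤ η / 4 * τ ^ 2 := by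
        calc σ ^ 2 ≤ (η ^ 2 / 2) ^ 2 := pow_le_pow_left₀ hσ.le hση 2
          _ = η / 4 * (η * η ^ 2) := by ring
          _ ≤ η / 4 * (1 * τ ^ 2) := mul_le_mul_of_nonneg_left (mul_le_mul hη1.le
              (pow_le_pow_left₀ hη.le hbig 2) (by positivity) zero_le_one) (by positivity)
          _ = _ := by ring
      have h2 : τ' ^ 2 ≤ (1 + η / 4) * τ ^ 2 := by linarith
      have h3 := pow_le_pow_left₀ (by positivity) h2 2
      calc (1 - η) * τ' ^ 4 = (1 - η) * (τ' ^ 2) ^ 2 := by ring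
        _ ≤ (1 - η) * ((1 + η / 4) * τ ^ 2) ^ 2 := mul_le_mul_of_nonneg_left h3 (by linarith)
        _ = ((1 - η) * (1 + η / 4) ^ 2) * τ ^ 4 := by ring
        _ ≤ 1 * τ ^ 4 := mul_le_mul_of_nonneg_right (by nlinarith) (by positivity)
        _ = _ := one_mul _
    have hline : 2 * d - gapN τ' d ≤ τ' ^ 4 * kern τ' d := by
      have := le_max_left (2 * d - line (max τ' 0) d) 0
      rw [max_eq_left hpos.le, line_eq hpos] at this
      have e : gapN τ' d = max (2 * d - τ' ^ 4 * kern τ' d) 0 := by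
        rw [gapN, max_eq_left hpos.le, line_eq hpos]
      linarith
    have hgap' : gapN τ' d ≤ gapN τ d + slack η τ := by
      rcases le_or_gt τ 3 with h3 | h3
      · refine (hgap τ τ' d hτ h3 hle (by linarith) hd).trans (add_le_add le_rfl ?_)
        rw [slack, indicator_of_mem (show τ ∈ Iic (3 : ℝ) from h3)]
        exact le_add_of_nonneg_right (indicator_nonneg (fun _ _ => zero_le_two) τ)
      · rw [gapN_eq_zero' (by linarith) hd.2]
        exact add_nonneg hg (slack_nonneg hη.le τ)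
    have h5 := mul_le_mul_of_nonneg_left hline (by linarith : 0 ≤ 1 - η)
    have h6 := mul_le_mul_of_nonneg_right h4 hk
    have h7 : 0 ≤ η * gapN τ' d := mul_nonneg hη.le (gapN_nonneg _ _)
    linarith

/-- The total shortfall along a chord. -/
theorem lintegral_gap_le {η d : ℝ} (hη : 0 < η) (hd : d ≤ 1) :
    ∫⁻ τ in Ioi (0 : ℝ), ENNReal.ofReal (gapN τ d + slack η τ) ≤
      ENNReal.ofReal (gapInt d + 5 * η) := by
  have hmN : Measurable fun τ => ENNReal.ofReal (gapN τ d) :=
    (continuous_gapN.comp (continuous_id.prodMk continuous_const)).measurable.ennreal_ofReal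
  have hN : ∫⁻ τ in Ioi (0 : ℝ), ENNReal.ofReal (gapN τ d) ≤ ENNReal.ofReal (gapInt d) := by
    have e : ∫⁻ τ in Ioi (0 : ℝ), ENNReal.ofReal (gapN τ d) =
        ∫⁻ τ in Ioc (0 : ℝ) 2, ENNReal.ofReal (gapN τ d) := by
      rw [← lintegral_indicator measurableSet_Ioi, ← lintegral_indicator measurableSet_Ioc]
      refine lintegral_congr fun τ => ?_
      rcases le_or_gt τ 2 with h | h
      · by_cases h0 : 0 < τ <;> simp [indicator, h, h0]
      · simp [indicator, h.not_ge, gapN_eq_zero' h.le hd]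
    have hi : IntegrableOn (fun τ => gapN τ d) (Ioc 0 2) :=
      ((continuous_gapN.comp (continuous_id.prodMk continuous_const)).integrableOn_Icc).mono_set
        Ioc_subset_Icc_self
    rw [e, ← ofReal_integral_eq_lintegral_ofReal hi (Eventually.of_forall fun τ => gapN_nonneg τ d),
      gapInt, intervalIntegral.integral_of_le zero_le_two]
  have hS : ∫⁻ τ in Ioi (0 : ℝ), ENNReal.ofReal (slack η τ) ≤ ENNReal.ofReal (5 * η) := by
    have e : ∀ τ, ENNReal.ofReal (slack η τ) =
        (Iic 3).indicator (fun _ => ENNReal.ofReal η) τ +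
          (Iio η).indicator (fun _ => ENNReal.ofReal 2) τ := fun τ => by
      rw [slack, ENNReal.ofReal_add (indicator_nonneg (fun _ _ => hη.le) τ)
        (indicator_nonneg (fun _ _ => zero_le_two) τ)]
      congr 1 <;> exact (congrFun (indicator_comp_of_zero (g := ENNReal.ofReal) (by simp)) τ).symm
    simp only [e]
    rw [lintegral_add_left (measurable_const.indicator measurableSet_Iic),
      lintegral_indicator_const measurableSet_Iic, lintegral_indicator_const measurableSet_Iio,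
      Measure.restrict_apply measurableSet_Iic, Measure.restrict_apply measurableSet_Iio,
      Iic_inter_Ioi, Iio_inter_Ioi, Real.volume_Ioc, Real.volume_Ioo, sub_zero, sub_zero,
      ← ENNReal.ofReal_mul hη.le, ← ENNReal.ofReal_mul zero_le_two,
      ← ENNReal.ofReal_add (by positivity) (by positivity)]
    exact ENNReal.ofReal_le_ofReal (by linarith)
  simp only [ENNReal.ofReal_add (gapN_nonneg _ d) (slack_nonneg hη.le _)]
  rw [lintegral_add_left hmN,
    ENNReal.ofReal_add (show 0 ≤ gapInt d from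
      intervalIntegral.integral_nonneg zero_le_two fun τ _ => gapN_nonneg τ d) (by positivity)]
  exact add_le_add hN hS

end Vale.Agent.P219.CH.Five
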