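import Vale.Agent.P219.Five.Defs

/-!
# P219, dimension five: the law of the cosine of a Gaussian direction

Split off the coordinate along the covector and substitute `a = |q| τ`; the normalisation of the
Gaussian gives the constant, so no special function is needed.
-/

noncomputable section

open MeasureTheory Set Filter Topology Matrix
open scoped ENNReal RealInnerProductSpace MatrixOrder

namespace Vale.Agent.P219.CH.Five

namespace Moment

/-- Five-dimensional Euclidean space. -/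
abbrev E5 := EuclideanSpace ℝ (Fin 5)

/-- The Gaussian weight. -/
def phi (w : E5) : ℝ≥0∞ := ENNReal.ofReal (Real.exp (-(1 / 2) * ‖w‖ ^ 2))

lemma measurable_phi : Measurable phi := by unfold phi; fun_prop

lemma lintegral_phi : ∫⁻ w, phi w = ENNReal.ofReal mass5 := by
  have hv : ∫ w : E5, Real.exp (-(1 / 2) * ‖w‖ ^ 2) = mass5 := by
    rw [GaussianFourier.integral_rexp_neg_mul_sq_norm (V := E5) (b := 1 / 2) (by norm_num),
      finrank_euclideanSpace_fin, mass5]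
    norm_num
    congr 1
    ring
  have hi : Integrable fun w : E5 => Real.exp (-(1 / 2) * ‖w‖ ^ 2) :=
    Integrable.of_integral_ne_zero (by rw [hv, mass5]; positivity)
  simp only [phi]
  rw [← ofReal_integral_eq_lintegral_ofReal hi
    (Eventually.of_forall fun w => (Real.exp_pos _).le), hv]

lemma lintegral_isometry (L : E5 ≃ₗᵢ[ℝ] E5) (F : E5 → ℝ≥0∞) :
    ∫⁻ w, phi w * F (L w) = ∫⁻ w, phi w * F w := by
  have h := L.measurePreserving.lintegral_comp_emb L.toHomeomorph.measurableEmbedding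
    fun w => phi w * F w
  simpa [phi] using h

/-- The first coordinate vector. -/
def e0 : E5 := EuclideanSpace.single 0 1

lemma norm_e0 : ‖e0‖ = 1 := by simp [e0]

lemma lintegral_rotate {η : E5} (hη : η ≠ 0) (F : ℝ → ℝ≥0∞) :
    ∫⁻ w, phi w * F (⟪η, w⟫ / (‖η‖ * ‖w‖)) = ∫⁻ w, phi w * F (⟪e0, w⟫ / ‖w‖) := by
  have hn : ‖η‖ = ‖‖η‖ • e0‖ := by simp [norm_smul, norm_e0]
  obtain ⟨L, hL⟩ : ∃ L : E5 ≃ₗᵢ[ℝ] E5, L η = ‖η‖ • e0 :=
    ⟨(ℝ ∙ (η - ‖η‖ • e0))ᗮ.reflection, Submodule.reflection_sub hn⟩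
  rw [← lintegral_isometry L fun w => F (⟪e0, w⟫ / ‖w‖)]
  refine lintegral_congr fun w => ?_
  congr 2
  have h1 : ⟪η, w⟫ = ‖η‖ * ⟪e0, L w⟫ := by
    rw [← L.inner_map_map, hL, real_inner_smul_left]
  rw [h1, L.norm_map, mul_div_mul_left _ _ (norm_ne_zero_iff.2 hη)]

lemma lintegral_line_scale {r : ℝ} (hr : 0 < r) (F : ℝ → ℝ≥0∞) (hF : Measurable F) :
    ∫⁻ a, F a = ENNReal.ofReal r * ∫⁻ t, F (r * t) := by
  have h := lintegral_map (μ := volume) hF (measurable_const_mul r)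
  rw [Real.map_volume_mul_left hr.ne', lintegral_smul_measure, smul_eq_mul] at h
  rw [← h, ← mul_assoc, ← ENNReal.ofReal_mul hr.le, abs_of_pos (inv_pos.2 hr),
    mul_inv_cancel₀ hr.ne', ENNReal.ofReal_one, one_mul]

lemma lintegral_space_scale {r : ℝ} (hr : 0 < r) (F : (Fin 4 → ℝ) → ℝ≥0∞) (hF : Measurable F) :
    ∫⁻ q, F (r • q) = ENNReal.ofReal (r⁻¹ ^ 4) * ∫⁻ q, F q := by
  have h := lintegral_map (μ := volume) hF (measurable_const_smul r)
  rw [Measure.map_addHaar_smul volume hr.ne', lintegral_smul_measure, smul_eq_mul,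
    Module.finrank_fin_fun] at h
  rw [← h, abs_of_pos (inv_pos.2 (pow_pos hr 4)), inv_pow]

/-- The radial constant. -/
def radK : ℝ≥0∞ :=
  ∫⁻ q : Fin 4 → ℝ, ENNReal.ofReal (Real.sqrt (q ⬝ᵥ q) * Real.exp (-(q ⬝ᵥ q) / 2))

lemma sqrt_dot_smul {r : ℝ} (hr : 0 ≤ r) (q : Fin 4 → ℝ) :
    Real.sqrt ((r • q) ⬝ᵥ (r • q)) = r * Real.sqrt (q ⬝ᵥ q) := by
  rw [smul_dotProduct, dotProduct_smul, smul_eq_mul, smul_eq_mul, ← mul_assoc, ← sq,
    Real.sqrt_mul (sq_nonneg r), Real.sqrt_sq hr]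

lemma lintegral_dot_scale (τ : ℝ) :
    ∫⁻ q : Fin 4 → ℝ, ENNReal.ofReal (Real.sqrt (q ⬝ᵥ q) *
        Real.exp (-((q ⬝ᵥ q) * (1 + τ ^ 2)) / 2)) =
      ENNReal.ofReal ((Real.sqrt (1 + τ ^ 2))⁻¹ ^ 5) * radK := by
  obtain ⟨r, hr⟩ : ∃ r, r = Real.sqrt (1 + τ ^ 2) := ⟨_, rfl⟩
  have hr0 : 0 < r := hr ▸ Real.sqrt_pos.2 (by positivity)
  have hr2 : r ^ 2 = 1 + τ ^ 2 := hr ▸ Real.sq_sqrt (by positivity)
  rw [← hr, radK, show r⁻¹ ^ 5 = r⁻¹ * r⁻¹ ^ 4 by ring,
    ENNReal.ofReal_mul (inv_nonneg.2 hr0.le), mul_assoc,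
    ← lintegral_space_scale hr0 _ (by simp only [dotProduct]; fun_prop),
    ← lintegral_const_mul' _ _ ENNReal.ofReal_ne_top]
  refine lintegral_congr fun q => ?_
  rw [← ENNReal.ofReal_mul (inv_nonneg.2 hr0.le), sqrt_dot_smul hr0.le, ← mul_assoc,
    ← mul_assoc, inv_mul_cancel₀ hr0.ne', one_mul, ← hr2]
  congr 3
  simp only [smul_dotProduct, dotProduct_smul, smul_eq_mul]
  ring

/-- The two-sided law in coordinates. -/
lemma lintegral_coord {g : ℝ → ℝ≥0∞} (hg : Measurable g) :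
    ∫⁻ w, phi w * g (|⟪e0, w⟫| / ‖w‖) =
      radK * ∫⁻ τ : ℝ, ENNReal.ofReal ((Real.sqrt (1 + τ ^ 2))⁻¹ ^ 5) *
        g (|τ| / Real.sqrt (1 + τ ^ 2)) := by
  set H : ℝ × (Fin 4 → ℝ) → ℝ≥0∞ := fun p =>
    ENNReal.ofReal (Real.exp (-(p.1 ^ 2 + p.2 ⬝ᵥ p.2) / 2)) *
      g (|p.1| / Real.sqrt (p.1 ^ 2 + p.2 ⬝ᵥ p.2)) with hH
  have hHm : Measurable H := by
    have hq : Measurable fun p : ℝ × (Fin 4 → ℝ) => p.2 ⬝ᵥ p.2 := by
      simp only [dotProduct]; fun_prop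
    have hs : Measurable fun p : ℝ × (Fin 4 → ℝ) => p.1 ^ 2 + p.2 ⬝ᵥ p.2 :=
      (measurable_fst.pow_const 2).add hq
    exact ((hs.neg.div_const 2).exp.ennreal_ofReal).mul
      (hg.comp ((measurable_fst.abs).div hs.sqrt))
  have e1 : ∫⁻ w, phi w * g (|⟪e0, w⟫| / ‖w‖) = ∫⁻ p, H p := by
    rw [← (volume_preserving_piFinSuccAbove (fun _ : Fin 5 => ℝ) 0).lintegral_comp hHm,
      ← (PiLp.volume_preserving_ofLp (Fin 5)).lintegral_comp
        (f := fun v => H ((MeasurableEquiv.piFinSuccAbove (fun _ : Fin 5 => ℝ) 0) v))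
        (hHm.comp (MeasurableEquiv.measurable _))]
    refine lintegral_congr fun w => ?_
    have hn : ‖w‖ ^ 2 = w 0 ^ 2 + ∑ i : Fin 4, w i.succ * w i.succ := by
      rw [EuclideanSpace.norm_sq_eq, Fin.sum_univ_succ]
      simp [Real.norm_eq_abs, sq_abs, ← sq]
    have hi : ⟪e0, w⟫ = w 0 := by simp [e0, EuclideanSpace.inner_single_left]
    simp only [hH, MeasurableEquiv.piFinSuccAbove_apply, dotProduct, phi, hi]
    simp only [Fin.insertNthEquiv, Equiv.coe_fn_symm_mk, Fin.removeNth_zero, Fin.tail]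
    rw [← hn, Real.sqrt_sq (norm_nonneg w)]
    congr 2
    ring_nf
  rw [e1, Measure.volume_eq_prod, lintegral_prod_symm' _ hHm]
  have e2 : ∀ᵐ q : Fin 4 → ℝ, ∫⁻ a, H (a, q) = ∫⁻ τ : ℝ,
      ENNReal.ofReal (Real.sqrt (q ⬝ᵥ q) * Real.exp (-((q ⬝ᵥ q) * (1 + τ ^ 2)) / 2)) *
        g (|τ| / Real.sqrt (1 + τ ^ 2)) := by
    filter_upwards [Measure.ae_ne volume (0 : Fin 4 → ℝ)] with q hq
    obtain ⟨r, hr⟩ : ∃ r, r = Real.sqrt (q ⬝ᵥ q) := ⟨_, rfl⟩
    have hqq : 0 < q ⬝ᵥ q := by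
      obtain ⟨i, hi⟩ := Function.ne_iff.1 hq
      exact Finset.sum_pos' (fun j _ => mul_self_nonneg _)
        ⟨i, Finset.mem_univ _, mul_self_pos.2 hi⟩
    have hr0 : 0 < r := hr ▸ Real.sqrt_pos.2 hqq
    have hHq : Measurable fun a => H (a, q) := hHm.comp (measurable_id.prodMk measurable_const)
    rw [lintegral_line_scale hr0 (fun a => H (a, q)) hHq, ← hr,
      ← lintegral_const_mul' _ _ ENNReal.ofReal_ne_top]
    refine lintegral_congr fun τ => ?_
    have hr2 : r ^ 2 = q ⬝ᵥ q := hr ▸ Real.sq_sqrt hqq.le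
    have e3 : (r * τ) ^ 2 + q ⬝ᵥ q = r ^ 2 * (1 + τ ^ 2) := by rw [hr2.symm]; ring
    simp only [hH, e3]
    rw [← mul_assoc, ← ENNReal.ofReal_mul hr0.le, Real.sqrt_mul (sq_nonneg r),
      Real.sqrt_sq hr0.le, abs_mul, abs_of_pos hr0, mul_div_mul_left _ _ hr0.ne', hr2]
  rw [lintegral_congr_ae e2, lintegral_lintegral_swap]
  · rw [← lintegral_const_mul _ (by fun_prop)]
    refine lintegral_congr fun τ => ?_
    rw [lintegral_mul_const _ (by simp only [dotProduct]; fun_prop), lintegral_dot_scale]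
    ring
  · simp only [dotProduct]
    fun_prop

/-- The substitution `c = τ / sqrt (1 + τ ^ 2)`. -/
lemma lintegral_subst (g : ℝ → ℝ≥0∞) :
    ∫⁻ τ : ℝ, ENNReal.ofReal ((Real.sqrt (1 + τ ^ 2))⁻¹ ^ 5) * g (|τ| / Real.sqrt (1 + τ ^ 2)) =
      ∫⁻ c in Ioo (-1 : ℝ) 1, ENNReal.ofReal (1 - c ^ 2) * g |c| := by
  set φ : ℝ → ℝ := fun τ => τ / Real.sqrt (1 + τ ^ 2)
  have hs : ∀ τ : ℝ, 0 < Real.sqrt (1 + τ ^ 2) := fun τ => Real.sqrt_pos.2 (by positivity)
  have hs2 : ∀ τ : ℝ, Real.sqrt (1 + τ ^ 2) ^ 2 = 1 + τ ^ 2 := fun τ =>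
    Real.sq_sqrt (by positivity)
  have hd : ∀ τ ∈ (univ : Set ℝ),
      HasDerivWithinAt φ ((Real.sqrt (1 + τ ^ 2))⁻¹ ^ 3) univ τ := fun τ _ => by
    have h : HasDerivAt φ _ τ := (hasDerivAt_id τ).div
      (((hasDerivAt_pow 2 τ).const_add 1).sqrt (by positivity)) (hs τ).ne'
    refine (h.congr_deriv ?_).hasDerivWithinAt
    have := (hs τ).ne'
    simp only [id_eq]
    push_cast
    field_simp
    linear_combination hs2 τ
  have hinj : InjOn φ univ := fun a _ b _ hab => by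
    have ha := hs2 a
    have hb := hs2 b
    simp only [φ] at hab
    rw [div_eq_div_iff (hs a).ne' (hs b).ne'] at hab
    have h2 : a ^ 2 = b ^ 2 := by
      have := congrArg (fun z => z ^ 2) hab
      simp only [mul_pow, ha, hb] at this
      linarith
    have h3 : Real.sqrt (1 + a ^ 2) = Real.sqrt (1 + b ^ 2) := by rw [h2]
    rw [h3] at hab
    exact mul_right_cancel₀ (hs b).ne' hab
  have himg : φ '' univ = Ioo (-1 : ℝ) 1 := by
    refine Subset.antisymm ?_ fun c hc => ?_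
    · rintro _ ⟨τ, -, rfl⟩
      refine abs_lt.1 ?_
      rw [abs_div, abs_of_pos (hs τ), div_lt_one (hs τ), ← Real.sqrt_sq_eq_abs]
      exact Real.sqrt_lt_sqrt (sq_nonneg τ) (by linarith)
    · have hc2 : 0 < 1 - c ^ 2 := by nlinarith [hc.1, hc.2]
      refine ⟨c / Real.sqrt (1 - c ^ 2), mem_univ _, ?_⟩
      have hpos := Real.sqrt_pos.2 hc2
      have e : 1 + (c / Real.sqrt (1 - c ^ 2)) ^ 2 = (Real.sqrt (1 - c ^ 2))⁻¹ ^ 2 := by
        have := Real.sq_sqrt hc2.le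
        field_simp
        linarith
      simp only [φ]
      rw [e, Real.sqrt_sq (inv_pos.2 hpos).le]
      field_simp
  have h1 := lintegral_image_eq_lintegral_abs_deriv_mul MeasurableSet.univ hd hinj
    fun c => ENNReal.ofReal (1 - c ^ 2) * g |c|
  rw [himg, setLIntegral_univ] at h1
  rw [h1]
  refine lintegral_congr fun τ => ?_
  simp only [φ]
  rw [← mul_assoc, ← ENNReal.ofReal_mul (abs_nonneg _), abs_pow, abs_inv, abs_of_pos (hs τ),
    abs_div, abs_of_pos (hs τ)]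
  congr 2
  have := (hs τ).ne'
  field_simp
  linear_combination -hs2 τ

lemma lintegral_cos {g : ℝ → ℝ} {B : ℝ} (hg : Measurable g) (h0 : ∀ c, 0 ≤ g c)
    (hB : ∀ c, g c ≤ B) :
    ∫⁻ c in Ioo (-1 : ℝ) 1, ENNReal.ofReal (1 - c ^ 2) * ENNReal.ofReal (g |c|) =
      ENNReal.ofReal (2 * ∫ c in (0 : ℝ)..1, g c * (1 - c ^ 2)) := by
  set f : ℝ → ℝ := fun c => g |c| * (1 - c ^ 2)
  have hfi : ∀ a b : ℝ, IntervalIntegrable f volume a b := fun a b =>
    intervalIntegrable_iff.2 <|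
      (((continuous_const.sub (continuous_pow 2)).integrableOn_uIoc (a := a) (b := b)).integrable).bdd_mul
        (f := fun c => g |c|) (c := B) (hg.comp measurable_abs).aestronglyMeasurable
        (Eventually.of_forall fun c => by rw [Real.norm_eq_abs, abs_of_nonneg (h0 _)]; exact hB _)
  have e : ∫ c in (-1 : ℝ)..1, f c = 2 * ∫ c in (0 : ℝ)..1, g c * (1 - c ^ 2) := by
    rw [← intervalIntegral.integral_add_adjacent_intervals (hfi (-1) 0) (hfi 0 1)]
    have e1 : ∫ c in (-1 : ℝ)..0, f c = ∫ c in (0 : ℝ)..1, f c := by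
      have h := intervalIntegral.integral_comp_neg (f := f) (a := (-1 : ℝ)) (b := 0)
      rw [neg_zero, neg_neg] at h
      rw [← h]
      simp [f]
    have e2 : ∫ c in (0 : ℝ)..1, f c = ∫ c in (0 : ℝ)..1, g c * (1 - c ^ 2) :=
      intervalIntegral.integral_congr fun c hc => by
        rw [uIcc_of_le zero_le_one] at hc
        simp only [f, abs_of_nonneg hc.1]
    rw [e1, e2, two_mul]
  rw [← e, intervalIntegral.integral_of_le (by norm_num), ← integral_Ioc_eq_integral_Ioo.symm,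
    ofReal_integral_eq_lintegral_ofReal ((hfi (-1) 1).1.mono_set Ioo_subset_Ioc_self)
      (ae_restrict_of_forall_mem measurableSet_Ioo fun c hc =>
        mul_nonneg (h0 _) (by nlinarith [hc.1, hc.2]))]
  refine setLIntegral_congr_fun measurableSet_Ioo fun c hc => ?_
  simp only [f]
  rw [ENNReal.ofReal_mul (h0 _), mul_comm]

lemma radK_eq : radK * ENNReal.ofReal (4 / 3) = ENNReal.ofReal mass5 := by
  have h := lintegral_coord (g := fun _ => ENNReal.ofReal 1) measurable_const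
  rw [lintegral_subst (fun _ => ENNReal.ofReal 1),
    lintegral_cos (g := fun _ => 1) measurable_const (fun _ => zero_le_one) (fun _ => le_rfl)] at h
  have e : (2 : ℝ) * ∫ c in (0 : ℝ)..1, (1 : ℝ) * (1 - c ^ 2) = 4 / 3 := by
    simp
    norm_num
  rw [e] at h
  rw [← h, ← lintegral_phi]
  simp

/-- The one-sided law of the cosine with a fixed axis. -/
theorem lintegral_side {η : E5} (hη : η ≠ 0) {g : ℝ → ℝ} {B : ℝ} (hg : Measurable g)
    (h0 : ∀ c, 0 ≤ g c) (hB : ∀ c, g c ≤ B) :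
    ∫⁻ w, phi w * (Iio (0 : ℝ)).indicator (fun x => ENNReal.ofReal (g |x|))
        (⟪η, w⟫ / (‖η‖ * ‖w‖)) ≤
      ENNReal.ofReal (mass5 * (3 / 4 * ∫ c in (0 : ℝ)..1, g c * (1 - c ^ 2))) := by
  set F : ℝ → ℝ≥0∞ := (Iio (0 : ℝ)).indicator fun x => ENNReal.ofReal (g |x|)
  have hF : Measurable F :=
    (hg.comp measurable_abs).ennreal_ofReal.indicator measurableSet_Iio
  have hx : Measurable fun w : E5 => ⟪e0, w⟫ / ‖w‖ :=
    (continuous_const.inner continuous_id).measurable.div measurable_norm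
  rw [lintegral_rotate hη F]
  obtain ⟨J, hJ⟩ : ∃ J, J = ∫⁻ w, phi w * F (⟪e0, w⟫ / ‖w‖) := ⟨_, rfl⟩
  obtain ⟨I, hI⟩ : ∃ I, I = ∫ c in (0 : ℝ)..1, g c * (1 - c ^ 2) := ⟨_, rfl⟩
  rw [← hJ, ← hI]
  have e1 : ∫⁻ w, phi w * F (-(⟪e0, w⟫ / ‖w‖)) = J := by
    rw [hJ, ← lintegral_isometry (LinearIsometryEquiv.neg ℝ) fun w => F (⟪e0, w⟫ / ‖w‖)]
    simp [neg_div]
  have h2 : J + J ≤ ENNReal.ofReal mass5 * ENNReal.ofReal (3 / 2 * I) := by
    nth_rw 2 [← e1]
    have hm1 : Measurable fun w => phi w * F (⟪e0, w⟫ / ‖w‖) := measurable_phi.mul (hF.comp hx)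
    rw [hJ, ← lintegral_add_left hm1]
    refine le_trans (lintegral_mono (g := fun w => phi w * ENNReal.ofReal (g (|⟪e0, w⟫| / ‖w‖)))
      fun w => ?_) (le_of_eq ?_)
    · simp only
      rw [← mul_add]
      gcongr
      obtain ⟨z, hz⟩ : ∃ z, z = ⟪e0, w⟫ / ‖w‖ := ⟨_, rfl⟩
      rw [show |⟪e0, w⟫| / ‖w‖ = |z| by rw [hz, abs_div, abs_norm], ← hz]
      rcases lt_trichotomy z 0 with h | h | h
      · simp [F, h, h.le.not_gt]
      · simp [F, h]
      · simp [F, h, h.le.not_gt]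
    · rw [lintegral_coord (g := fun x => ENNReal.ofReal (g x)) hg.ennreal_ofReal, lintegral_subst
        (fun x => ENNReal.ofReal (g x)), lintegral_cos hg h0 hB, ← hI, ← radK_eq, mul_assoc,
        ← ENNReal.ofReal_mul (by norm_num)]
      congr 2
      ring
  have hm : 0 ≤ mass5 := by rw [mass5]; positivity
  rw [← ENNReal.ofReal_mul hm] at h2
  rw [← ENNReal.mul_le_mul_iff_right (show (2 : ℝ≥0∞) ≠ 0 by norm_num) (show (2 : ℝ≥0∞) ≠ ∞ by norm_num),
    two_mul]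
  refine h2.trans (le_of_eq ?_)
  rw [show (2 : ℝ≥0∞) = ENNReal.ofReal 2 by norm_num, ← ENNReal.ofReal_mul zero_le_two]
  congr 1
  ring

/-- Transfer of a Gaussian integral from the tangent space. -/
lemma lintegral_fibre {G : (Fin 5 → ℝ) → Matrix (Fin 5) (Fin 5) ℝ} {x : Fin 5 → ℝ}
    {B : Matrix (Fin 5) (Fin 5) ℝ} (hB0 : B.det ≠ 0) (hdens : dens G x = |B.det|)
    (hvn : ∀ v, Six.vnorm G x v = ‖(WithLp.toLp 2 (B *ᵥ v) : E5)‖) {F : E5 → ℝ≥0∞}
    (hF : Measurable F) :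
    ∫⁻ v, ENNReal.ofReal (Six.fibre G x v) * F (WithLp.toLp 2 (B *ᵥ v)) = ∫⁻ w, phi w * F w := by
  have hm : Measurable fun v : Fin 5 → ℝ => phi (WithLp.toLp 2 v) * F (WithLp.toLp 2 v) :=
    (measurable_phi.comp (WithLp.measurable_toLp 2 _)).mul (hF.comp (WithLp.measurable_toLp 2 _))
  have e1 : ∀ v, ENNReal.ofReal (Six.fibre G x v) * F (WithLp.toLp 2 (B *ᵥ v)) =
      ENNReal.ofReal |B.det| * (phi (WithLp.toLp 2 (B *ᵥ v)) * F (WithLp.toLp 2 (B *ᵥ v))) :=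
    fun v => by
      rw [← mul_assoc, Six.fibre, hdens, ENNReal.ofReal_mul (abs_nonneg _), hvn, phi]
      congr 4
      ring
  simp only [e1]
  rw [lintegral_const_mul' _ _ ENNReal.ofReal_ne_top]
  have hmap := Real.map_matrix_volume_pi_eq_smul_volume_pi (M := B) hB0
  have e2 : ∫⁻ v, phi (WithLp.toLp 2 (B *ᵥ v)) * F (WithLp.toLp 2 (B *ᵥ v)) =
      ∫⁻ v, phi (WithLp.toLp 2 v) * F (WithLp.toLp 2 v) ∂(Measure.map (toLin' B) volume) := by
    rw [lintegral_map hm (LinearMap.continuous_of_finiteDimensional _).measurable]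
    simp [Matrix.toLin'_apply]
  rw [e2, hmap, lintegral_smul_measure, smul_eq_mul, ← mul_assoc,
    ← ENNReal.ofReal_mul (abs_nonneg _), ← abs_mul, mul_inv_cancel₀ hB0, abs_one,
    ENNReal.ofReal_one, one_mul, ← (PiLp.volume_preserving_ofLp (Fin 5)).lintegral_comp hm]

end Moment

open Moment

/-- `MomentPin`. -/
theorem momentPin : MomentPin := by
  intro G x ξ hM
  set B := CFC.sqrt (G x)
  have hBB : B * B = G x := CFC.sqrt_mul_sqrt_self (G x) hM.posSemidef.nonneg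
  have hBs : Bᵀ = B := by
    have := (CFC.sqrt_nonneg (G x)).posSemidef.isHermitian.eq
    rwa [Matrix.conjTranspose_eq_transpose_of_trivial] at this
  have hdet : B.det * B.det = (G x).det := by rw [← det_mul, hBB]
  have hB0 : B.det ≠ 0 := fun h => hM.det_pos.ne' (by rw [← hdet, h, mul_zero])
  have hdens : dens G x = |B.det| := by
    rw [dens, ← hdet, Real.sqrt_mul_self_eq_abs]
  set η : E5 := WithLp.toLp 2 (B⁻¹ *ᵥ ξ)
  have hvn : ∀ v, Six.vnorm G x v = ‖(WithLp.toLp 2 (B *ᵥ v) : E5)‖ := fun v => by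
    rw [Six.vnorm, ← hBB, ← Matrix.mulVec_mulVec, EuclideanSpace.norm_eq]
    congr 1
    rw [dotProduct_mulVec, ← mulVec_transpose, hBs]
    simp [dotProduct, sq]
  have hin : ∀ v, ξ ⬝ᵥ v = ⟪η, WithLp.toLp 2 (B *ᵥ v)⟫ := fun v => by
    rw [EuclideanSpace.inner_toLp_toLp, star_trivial, dotProduct_comm, dotProduct_mulVec,
      ← mulVec_transpose, Matrix.transpose_nonsing_inv, hBs, Matrix.mulVec_mulVec,
      Matrix.nonsing_inv_mul _ (Ne.isUnit hB0),
      Matrix.one_mulVec, dotProduct_comm]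
  have hco : conorm G x ξ = ‖η‖ := by
    have hBi : B⁻¹ᵀ = B⁻¹ := by rw [Matrix.transpose_nonsing_inv, hBs]
    rw [conorm, pairing, ← hBB, Matrix.mul_inv_rev, ← Matrix.mulVec_mulVec, EuclideanSpace.norm_eq]
    congr 1
    rw [dotProduct_mulVec, ← mulVec_transpose, hBi]
    simp [η, dotProduct, sq]
  refine ⟨?_, fun g b hg h0 hb => ?_⟩
  · have h := lintegral_fibre hB0 hdens hvn (F := fun _ => 1) measurable_const
    simpa [lintegral_phi] using h
  rcases eq_or_ne η 0 with hη | hη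
  · simp [hin, hη]
  set F : E5 → ℝ≥0∞ := fun w => (Iio (0 : ℝ)).indicator (fun t => ENNReal.ofReal (g |t|))
    (⟪η, w⟫ / (‖η‖ * ‖w‖))
  have hF : Measurable F := ((hg.comp measurable_abs).ennreal_ofReal.indicator measurableSet_Iio).comp
    ((continuous_const.inner continuous_id).measurable.div (measurable_const.mul measurable_norm))
  have e : ∀ v, {v | ξ ⬝ᵥ v < 0}.indicator
      (fun v => ENNReal.ofReal (g (|ξ ⬝ᵥ v| / (conorm G x ξ * Six.vnorm G x v)))) v =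
        F (WithLp.toLp 2 (B *ᵥ v)) := fun v => by
    simp only [F, Set.indicator, mem_ofPred_eq, mem_Iio, hin, hco, hvn]
    obtain ⟨w, hw'⟩ : ∃ w : E5, w = WithLp.toLp 2 (B *ᵥ v) := ⟨_, rfl⟩
    rw [← hw']
    rcases eq_or_ne w 0 with hw | hw
    · simp [hw]
    have hp : 0 < ‖η‖ * ‖w‖ := mul_pos (norm_pos_iff.2 hη) (norm_pos_iff.2 hw)
    simp only [div_lt_iff₀ hp, zero_mul, abs_div, abs_of_pos hp]
  simp only [e]
  rw [lintegral_fibre hB0 hdens hvn hF]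
  exact lintegral_side hη hg h0 hb

end Vale.Agent.P219.CH.Five
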