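import Vale.Agent.P219.Five.Defs
import Vale.Agent.P219.Six.Polar

/-!
# P219, dimension five: polar coordinates along geodesics from one point
-/

noncomputable section

open MeasureTheory Set Filter Topology Matrix
open scoped ENNReal

namespace Vale.Agent.P219.CH.Five

open Six (Phase vnorm fibre volM IsExp continuous_vnorm_right vnorm_smul_of_nonneg vnorm_nonneg lintegral_smul_eq lintegral_logv abs_det_fderiv_logv_le)

/-- The radial integral is at most `polar5 / a ^ 5`, in product form. -/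
lemma radial_le {a : ℝ} (ha : 0 < a) :
    ∫⁻ t in Ioi (0 : ℝ), ENNReal.ofReal (a ^ 5 * (t⁻¹ ^ 6 * Real.exp (-((a / t) ^ 2 / 2)))) ≤
      ENNReal.ofReal polar5 := by
  set g : ℝ → ℝ≥0∞ := fun s => ENNReal.ofReal (Real.exp (-s) * Real.sqrt (2 * s) ^ 3)
  set φ : ℝ → ℝ := fun t => a ^ 2 / (2 * t ^ 2)
  have hd : ∀ t ∈ Ioi (0 : ℝ), HasDerivWithinAt φ (-(a ^ 2 / t ^ 3)) (Ioi 0) t := fun t ht => by
    have ht' : (t : ℝ) ≠ 0 := (mem_Ioi.1 ht).ne'
    have h := ((hasDerivAt_pow 2 t).const_mul 2).inv (by positivity)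
    have h2 := (h.const_mul (a ^ 2)).hasDerivWithinAt (s := Ioi (0 : ℝ))
    simp only [φ, div_eq_mul_inv]
    refine h2.congr_deriv ?_
    push_cast
    field_simp
  have hinj : InjOn φ (Ioi 0) := fun s hs t ht hst => by
    have hs' : (s : ℝ) ≠ 0 := (mem_Ioi.1 hs).ne'
    have ht' : (t : ℝ) ≠ 0 := (mem_Ioi.1 ht).ne'
    simp only [φ] at hst
    field_simp at hst
    exact (sq_eq_sq₀ (mem_Ioi.1 hs).le (mem_Ioi.1 ht).le).1 (by linarith)
  have himg : φ '' Ioi 0 ⊆ Ioi 0 := by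
    rintro _ ⟨t, ht, rfl⟩
    have : 0 < t := mem_Ioi.1 ht
    exact mem_Ioi.2 (by positivity)
  have h1 := lintegral_image_eq_lintegral_abs_deriv_mul measurableSet_Ioi hd hinj g
  calc ∫⁻ t in Ioi (0 : ℝ), ENNReal.ofReal (a ^ 5 * (t⁻¹ ^ 6 * Real.exp (-((a / t) ^ 2 / 2))))
      = ∫⁻ t in Ioi (0 : ℝ), ENNReal.ofReal |(-(a ^ 2 / t ^ 3))| * g (φ t) := by
        refine setLIntegral_congr_fun measurableSet_Ioi fun t ht => ?_
        have ht' : 0 < t := mem_Ioi.1 ht
        simp only [g, φ]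
        rw [← ENNReal.ofReal_mul (abs_nonneg _), abs_neg, abs_of_pos (by positivity),
          show 2 * (a ^ 2 / (2 * t ^ 2)) = (a / t) ^ 2 by ring,
          Real.sqrt_sq (by positivity),
          show a ^ 2 / (2 * t ^ 2) = (a / t) ^ 2 / 2 by ring]
        congr 1
        field_simp
    _ = ∫⁻ s in φ '' Ioi 0, g s := h1.symm
    _ ≤ ∫⁻ s in Ioi 0, g s := lintegral_mono_set himg
    _ = ENNReal.ofReal polar5 := by
        have h52 : (0 : ℝ) < 5 / 2 := by norm_num
        have e : ∀ s ∈ Ioi (0 : ℝ), Real.exp (-s) * Real.sqrt (2 * s) ^ 3 =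
            2 * Real.sqrt 2 * (Real.exp (-s) * s ^ ((5 : ℝ) / 2 - 1)) := fun s hs => by
          have hs' : (0 : ℝ) < s := hs
          rw [show (5 : ℝ) / 2 - 1 = 1 + 1 / 2 by norm_num, Real.rpow_add hs', Real.rpow_one,
            ← Real.sqrt_eq_rpow, Real.sqrt_mul zero_le_two]
          linear_combination Real.exp (-s) * Real.sqrt 2 * Real.sqrt s *
            (Real.sqrt 2 * Real.sqrt 2) * Real.mul_self_sqrt hs'.le +
            Real.exp (-s) * Real.sqrt 2 * Real.sqrt s * s * Real.mul_self_sqrt zero_le_two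
        rw [setLIntegral_congr_fun measurableSet_Ioi fun s hs =>
            congrArg ENNReal.ofReal (e s hs),
          ← ofReal_integral_eq_lintegral_ofReal
            ((Real.GammaIntegral_convergent h52).const_mul _)
            (ae_restrict_of_forall_mem measurableSet_Ioi fun s hs => mul_nonneg (by positivity)
              (mul_nonneg (Real.exp_pos _).le (Real.rpow_nonneg (le_of_lt hs) _))),
          integral_const_mul, ← Real.Gamma_eq_integral h52]
        congr 1
        rw [show (5 : ℝ) / 2 = 3 / 2 + 1 by norm_num, Real.Gamma_add_one (by norm_num),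
          show (3 : ℝ) / 2 = 1 / 2 + 1 by norm_num, Real.Gamma_add_one (by norm_num),
          Real.Gamma_one_half_eq, polar5, Real.sqrt_div Real.pi_pos.le]
        field_simp
        rw [Real.sq_sqrt zero_le_two]
        ring

/-- The integrand at time `t` as a function of `w = t v`. -/
@[irreducible] def radialFn (G : (Fin 5 → ℝ) → Matrix (Fin 5) (Fin 5) ℝ) (e : Phase 5 → Fin 5 → ℝ)
    (f : (Fin 5 → ℝ) → ℝ≥0∞) (x w : Fin 5 → ℝ) (t : ℝ) : ℝ≥0∞ :=
  ENNReal.ofReal (dens G x * Real.exp (-((vnorm G x w / t) ^ 2 / 2))) * (f (e (x, w)) *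
    ENNReal.ofReal (vnorm G x w ^ 5 / t))

variable {G₅ : (Fin 5 → ℝ) → Matrix (Fin 5) (Fin 5) ℝ} {e₅ : Phase 5 → Fin 5 → ℝ}
  {f : (Fin 5 → ℝ) → ℝ≥0∞}

lemma measurable_radialFn (he : Continuous e₅) (hf : Measurable f) (x : Fin 5 → ℝ) :
    Measurable (Function.uncurry (radialFn G₅ e₅ f x)) := by
  have hcx : Continuous fun w => e₅ (x, w) := he.comp (continuous_const.prodMk continuous_id)
  have hn : Measurable fun p : (Fin 5 → ℝ) × ℝ => vnorm G₅ x p.1 :=
    (continuous_vnorm_right (G := G₅) x).measurable.comp measurable_fst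
  rw [show Function.uncurry (radialFn G₅ e₅ f x) = fun p : (Fin 5 → ℝ) × ℝ =>
      ENNReal.ofReal (dens G₅ x * Real.exp (-((vnorm G₅ x p.1 / p.2) ^ 2 / 2))) * (f (e₅ (x, p.1)) *
        ENNReal.ofReal (vnorm G₅ x p.1 ^ 5 / p.2)) from funext fun p => by
    simp [Function.uncurry, radialFn.eq_def]]
  refine (Measurable.ennreal_ofReal ?_).mul ((hf.comp (hcx.measurable.comp measurable_fst)).mul
    (Measurable.ennreal_ofReal ?_))
  · exact measurable_const.mul ((((hn.div measurable_snd).pow_const 2).div_const 2).neg.exp)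
  · exact (hn.pow_const 5).div measurable_snd

lemma integrand_eq (x v : Fin 5 → ℝ) {t : ℝ} (ht : 0 < t) :
    ENNReal.ofReal (fibre G₅ x v) * (f (Six.line e₅ (x, v) t) *
      ENNReal.ofReal ((t * vnorm G₅ x v) ^ 4 * vnorm G₅ x v)) =
        radialFn G₅ e₅ f x (t • v) t := by
  simp only [radialFn.eq_def, fibre, Six.line, vnorm_smul_of_nonneg ht.le]
  rw [mul_div_cancel_left₀ _ ht.ne']
  congr 3
  field_simp

lemma measurable_integrand (he : Continuous e₅) (hf : Measurable f) (x : Fin 5 → ℝ) :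
    Measurable fun p : (Fin 5 → ℝ) × ℝ => ENNReal.ofReal (fibre G₅ x p.1) *
      (f (Six.line e₅ (x, p.1) p.2) *
        ENNReal.ofReal ((p.2 * vnorm G₅ x p.1) ^ 4 * vnorm G₅ x p.1)) := by
  have hc : Continuous fun p : (Fin 5 → ℝ) × ℝ => e₅ (x, p.2 • p.1) :=
    he.comp (continuous_const.prodMk (continuous_snd.smul continuous_fst))
  have hn : Measurable fun p : (Fin 5 → ℝ) × ℝ => vnorm G₅ x p.1 :=
    (continuous_vnorm_right (G := G₅) x).measurable.comp measurable_fst
  have hfib : Measurable fun p : (Fin 5 → ℝ) × ℝ => fibre G₅ x p.1 := by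
    unfold fibre
    exact measurable_const.mul (((hn.pow_const 2).div_const 2).neg.exp)
  exact hfib.ennreal_ofReal.mul ((hf.comp hc.measurable).mul
    ((((measurable_snd.mul hn).pow_const 4).mul hn).ennreal_ofReal))

lemma radialFn_le {G₁ : (Fin 5 → ℝ) → Matrix (Fin 5) (Fin 5) ℝ} (x w : Fin 5 → ℝ)
    (hd : 0 ≤ dens G₁ x) :
    ∫⁻ t in Ioi (0 : ℝ), ENNReal.ofReal ((t ^ 5)⁻¹) * radialFn G₁ e₅ f x w t ≤
      ENNReal.ofReal polar5 * (ENNReal.ofReal (dens G₁ x) * f (e₅ (x, w))) := by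
  rcases (vnorm_nonneg (G := G₁) x w).eq_or_lt with h0 | h0
  · simp [radialFn.eq_def, ← h0]
  have e : ∀ t ∈ Ioi (0 : ℝ), ENNReal.ofReal ((t ^ 5)⁻¹) * radialFn G₁ e₅ f x w t =
      (ENNReal.ofReal (dens G₁ x) * f (e₅ (x, w))) * ENNReal.ofReal (vnorm G₁ x w ^ 5 *
        (t⁻¹ ^ 6 * Real.exp (-((vnorm G₁ x w / t) ^ 2 / 2)))) := by
    intro t ht
    have ht' : 0 < t := mem_Ioi.1 ht
    simp only [radialFn.eq_def]
    rw [show vnorm G₁ x w ^ 5 * (t⁻¹ ^ 6 * Real.exp (-((vnorm G₁ x w / t) ^ 2 / 2))) =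
        (t ^ 5)⁻¹ * (Real.exp (-((vnorm G₁ x w / t) ^ 2 / 2)) * (vnorm G₁ x w ^ 5 / t)) by
      field_simp,
      ENNReal.ofReal_mul hd, ENNReal.ofReal_mul (inv_nonneg.2 (by positivity)),
      ENNReal.ofReal_mul (Real.exp_pos _).le]
    ring
  rw [setLIntegral_congr_fun measurableSet_Ioi e, lintegral_const_mul _ (by fun_prop), mul_comm (ENNReal.ofReal polar5)]
  exact mul_le_mul' le_rfl (radial_le h0)

lemma swap_and_scale (he : Continuous e₅) (hf : Measurable f) (x : Fin 5 → ℝ) :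
    ∫⁻ v, ENNReal.ofReal (fibre G₅ x v) * ∫⁻ t in Ioi (0 : ℝ),
        f (Six.line e₅ (x, v) t) * ENNReal.ofReal ((t * vnorm G₅ x v) ^ 4 * vnorm G₅ x v) =
      ∫⁻ w, ∫⁻ t in Ioi (0 : ℝ), ENNReal.ofReal ((t ^ 5)⁻¹) * radialFn G₅ e₅ f x w t := by
  have hΦ := measurable_radialFn (G₅ := G₅) he hf x
  have hH := measurable_integrand (G₅ := G₅) he hf x
  have h1 : ∀ t ∈ Ioi (0 : ℝ), (∫⁻ v, ENNReal.ofReal (fibre G₅ x v) * (f (Six.line e₅ (x, v) t) *
      ENNReal.ofReal ((t * vnorm G₅ x v) ^ 4 * vnorm G₅ x v))) =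
      ∫⁻ w, ENNReal.ofReal ((t ^ 5)⁻¹) * radialFn G₅ e₅ f x w t := by
    intro t ht
    have hm : Measurable fun w => radialFn G₅ e₅ f x w t :=
      hΦ.comp (measurable_id.prodMk measurable_const)
    have e1 := lintegral_congr (μ := (volume : Measure (Fin 5 → ℝ)))
      fun v => integrand_eq (G₅ := G₅) (e₅ := e₅) (f := f) x v (mem_Ioi.1 ht)
    have e2 := lintegral_smul_eq (n := 5) (mem_Ioi.1 ht) (fun w => radialFn G₅ e₅ f x w t) hm
    exact e1.trans (e2.trans (lintegral_const_mul _ hm).symm)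
  have hS : Measurable (Function.uncurry fun (t : ℝ) (w : Fin 5 → ℝ) =>
      ENNReal.ofReal ((t ^ 5)⁻¹) * radialFn G₅ e₅ f x w t) :=
    ((measurable_fst.pow_const 5).inv.ennreal_ofReal).mul (hΦ.comp measurable_swap)
  rw [← lintegral_lintegral_swap hS.aemeasurable, ← setLIntegral_congr_fun measurableSet_Ioi h1,
    ← lintegral_lintegral_swap hH.aemeasurable]
  exact lintegral_congr fun v => (lintegral_const_mul' _ _ ENNReal.ofReal_ne_top).symm

/-- Polar coordinates with the comparison theorem of Rauch. -/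
theorem polarPin : PolarPin := by
  intro G D e h he x f hf
  have hec := he.contDiff.continuous
  have hcx : Continuous fun w => e (x, w) := hec.comp (continuous_const.prodMk continuous_id)
  rw [swap_and_scale hec hf x]
  calc ∫⁻ w, ∫⁻ t in Ioi (0 : ℝ), ENNReal.ofReal ((t ^ 5)⁻¹) * radialFn G e f x w t
      ≤ ∫⁻ w, ENNReal.ofReal polar5 * (ENNReal.ofReal (dens G x) * f (e (x, w))) :=
        lintegral_mono fun w => radialFn_le x w (h.dens_pos x).le
    _ = ENNReal.ofReal polar5 * ∫⁻ w, ENNReal.ofReal (dens G x) * f (e (x, w)) :=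
        lintegral_const_mul _ (measurable_const.mul (hf.comp hcx.measurable))
    _ ≤ ENNReal.ofReal polar5 * ∫⁻ y, f y ∂volM G := by
        refine mul_le_mul' le_rfl ?_
        rw [lintegral_logv h he x, volM,
          lintegral_withDensity_eq_lintegral_mul _ h.continuous_dens.measurable.ennreal_ofReal hf]
        refine lintegral_mono fun y => ?_
        rw [he.exp_logv, Pi.mul_apply, ← mul_assoc, ← ENNReal.ofReal_mul (abs_nonneg _)]
        exact mul_le_mul' (ENNReal.ofReal_le_ofReal (abs_det_fderiv_logv_le h x y)) le_rfl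

end Vale.Agent.P219.CH.Five
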