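import Vale.Agent.P219.Five.LinesReal
import Vale.Agent.P219.Six.PairPoint
import Vale.Agent.P219.Dir.Row

/-!
# P219, dimension five: the row of a centre, from the directional row
-/

noncomputable section

open MeasureTheory Set Filter Topology Matrix
open scoped ENNReal

namespace Vale.Agent.P219.CH.Five

/-- A smooth positive function equal to the identity from `m` on. -/
def pext (m x : ℝ) : ℝ := m + Real.smoothTransition ((2 * x - m) / m) * (x - m)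

lemma contDiff_pext (m : ℝ) : ContDiff ℝ 1 (pext m) :=
  contDiff_const.add ((Real.smoothTransition.contDiff.comp
    (((contDiff_const.mul contDiff_id).sub contDiff_const).div_const m)).mul
      (contDiff_id.sub contDiff_const))

lemma pext_eq {m x : ℝ} (hm : 0 < m) (hx : m ≤ x) : pext m x = x := by
  rw [pext, Real.smoothTransition.one_of_one_le (by rw [le_div_iff₀ hm]; linarith)]
  ring

lemma pext_pos {m x : ℝ} (hm : 0 < m) : 0 < pext m x := by
  rcases le_or_gt m x with h | h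
  · rw [pext_eq hm h]; linarith
  rcases le_or_gt x (m / 2) with h2 | h2
  · rw [pext, Real.smoothTransition.zero_of_nonpos (div_nonpos_of_nonpos_of_nonneg (by linarith) hm.le)]
    linarith
  · have h1 := Real.smoothTransition.le_one ((2 * x - m) / m)
    have h0 := Real.smoothTransition.nonneg ((2 * x - m) / m)
    unfold pext
    nlinarith

/-- The scaled distance, extended to all parameters. -/
def rad (s₀ ε : ℝ) (p a : ℝ) : ℝ := pext s₀ p * Real.sqrt (pext (ε ^ 2 / 2) (2 * a + ε ^ 2))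

lemma rad_pos {s₀ ε : ℝ} (hs : 0 < s₀) (hε : 0 < ε) (p a : ℝ) : 0 < rad s₀ ε p a :=
  mul_pos (pext_pos hs) (Real.sqrt_pos.2 (pext_pos (by positivity)))

/-- The weight family of the row. -/
def wfam (s₀ ε : ℝ) (p : ℝ) (z : ℝ × ℝ) : ℝ := prof (rad s₀ ε p z.1) / rad s₀ ε p z.1

lemma contDiff_wfam {s₀ ε : ℝ} (hs : 0 < s₀) (hε : 0 < ε) :
    ContDiff ℝ 1 fun z : ℝ × ℝ × ℝ => wfam s₀ ε z.1 z.2 := by
  have hsq : ContDiff ℝ 1 fun z : ℝ × ℝ × ℝ =>
      Real.sqrt (pext (ε ^ 2 / 2) (2 * z.2.1 + ε ^ 2)) :=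
    ((contDiff_pext (ε ^ 2 / 2)).comp
      ((contDiff_const.mul (contDiff_fst.comp contDiff_snd)).add contDiff_const)).sqrt
      fun z => (pext_pos (by positivity : 0 < ε ^ 2 / 2)).ne'
  have hr : ContDiff ℝ 1 fun z : ℝ × ℝ × ℝ => rad s₀ ε z.1 z.2.1 :=
    ((contDiff_pext s₀).comp contDiff_fst).mul hsq
  have hne : ∀ z : ℝ × ℝ × ℝ, rad s₀ ε z.1 z.2.1 ≠ 0 := fun z => (rad_pos hs hε _ _).ne'
  unfold wfam
  refine ContDiff.div ?_ hr hne
  unfold prof
  refine ContDiff.div (by fun_prop) (by fun_prop) fun z => ?_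
  have := rad_pos hs hε z.1 z.2.1
  positivity

lemma rad_eq {s₀ ε p a : ℝ} (hs : 0 < s₀) (hε : 0 < ε) (hp : s₀ ≤ p) (ha : -(ε ^ 2 / 4) ≤ a) :
    rad s₀ ε p a = p * Real.sqrt (2 * a + ε ^ 2) := by
  rw [rad, pext_eq hs hp, pext_eq (by positivity) (by linarith)]

lemma hasFDerivAt_wfam {s₀ ε p a : ℝ} (hs : 0 < s₀) (hε : 0 < ε) (hp : s₀ ≤ p) (ha : 0 ≤ a)
    (b : ℝ) :
    HasFDerivAt (wfam s₀ ε p) (((profD (p * Real.sqrt (2 * a + ε ^ 2)) *
        (p * Real.sqrt (2 * a + ε ^ 2)) - prof (p * Real.sqrt (2 * a + ε ^ 2))) /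
        (p * Real.sqrt (2 * a + ε ^ 2)) ^ 2 * (p / Real.sqrt (2 * a + ε ^ 2))) •
      ContinuousLinearMap.fst ℝ ℝ ℝ) (a, b) := by
  obtain ⟨ρ, hρ⟩ : ∃ z, z = Real.sqrt (2 * a + ε ^ 2) := ⟨_, rfl⟩
  rw [← hρ]
  have hρ0 : 0 < ρ := by rw [hρ]; positivity
  have ht : 0 < p * ρ := mul_pos (hs.trans_le hp) hρ0
  have h1 : HasDerivAt (fun a => p * Real.sqrt (2 * a + ε ^ 2)) (p / ρ) a := by
    have := (((hasDerivAt_id a).const_mul 2).add_const (ε ^ 2)).sqrt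
      (by simp only [id_eq]; positivity) |>.const_mul p
    simp only [id_eq] at this
    refine this.congr_deriv ?_
    rw [← hρ]
    field_simp
  have h2 : HasDerivAt (fun x => prof x / x) ((profD (p * ρ) * (p * ρ) - prof (p * ρ)) / (p * ρ) ^ 2)
      (p * Real.sqrt (2 * a + ε ^ 2)) := by
    rw [← hρ]
    exact ((hasDerivAt_prof ht).div (hasDerivAt_id _) ht.ne').congr_deriv (by simp)
  have h3 : HasDerivAt (fun a => prof (rad s₀ ε p a) / rad s₀ ε p a) _ a :=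
    (h2.comp a h1).congr_of_eventuallyEq (by
      filter_upwards [eventually_ge_nhds (show -(ε ^ 2 / 4) < a by nlinarith)] with x hx
      simp only [Function.comp, rad_eq hs hε hp hx])
  have h4 : HasFDerivAt (Prod.fst : ℝ × ℝ → ℝ) (ContinuousLinearMap.fst ℝ ℝ ℝ) (a, b) := hasFDerivAt_fst
  exact h3.comp_hasFDerivAt (a, b) h4

/-- The directional integrand is at least the certificate. -/
theorem kern_le {s₀ ε p a d : ℝ} (hs : 0 < s₀) (hε : 0 < ε) (hp : s₀ ≤ p) (ha : 0 ≤ a)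
    (hd : |d| ≤ 1) (b : ℝ) :
    kern (p * Real.sqrt (2 * a + ε ^ 2)) |d| ≤
      1 + Dir.kern 5 (4 * p) (wfam s₀ ε p) a b d := by
  have hF := hasFDerivAt_wfam hs hε hp ha b
  obtain ⟨ρ, hρ⟩ : ∃ z, z = Real.sqrt (2 * a + ε ^ 2) := ⟨_, rfl⟩
  obtain ⟨t, ht⟩ : ∃ z, z = p * ρ := ⟨_, rfl⟩
  rw [← hρ] at hF ⊢
  have hρ0 : 0 < ρ := by rw [hρ]; positivity
  have hp0 : 0 < p := hs.trans_le hp
  have ht0 : 0 < t := by rw [ht]; positivity
  have hwv : wfam s₀ ε p (a, b) = prof t / t := by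
    rw [wfam, rad_eq hs hε hp (by nlinarith), ← hρ, ← ht]
  have hwa : Dir.wa (wfam s₀ ε p) (a, b) =
      (profD t * t - prof t) / t ^ 2 * (p / ρ) := by
    rw [Dir.wa, hF.fderiv]
    simp [ht]
  have hwb : Dir.wb (wfam s₀ ε p) (a, b) = 0 := by
    rw [Dir.wb, hF.fderiv]
    simp
  rw [← ht, Dir.kern, hwv, hwa, hwb]
  have hW : 0 < prof t / t := div_pos (prof_pos ht0) ht0
  have hneg : profD t - prof t / t ≤ 0 := by linarith [profD_neg ht0]
  have hd2 : 0 ≤ 1 - d ^ 2 := by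
    have : d ^ 2 ≤ 1 := by rw [← sq_abs]; exact pow_le_one₀ (abs_nonneg d) hd
    linarith
  have h2a : 2 * a * ((profD t * t - prof t) / t ^ 2 * (p / ρ)) =
      2 * a / ρ ^ 2 * (profD t - prof t / t) := by
    rw [ht]; field_simp
  have hq : 2 * a / ρ ^ 2 ≤ 1 := by
    rw [div_le_one (by positivity), hρ, Real.sq_sqrt (by positivity)]
    nlinarith
  have hsh : p * Real.sqrt (2 * a) * max d 0 ≤ t * |d| :=
    mul_le_mul (ht ▸ mul_le_mul_of_nonneg_left (hρ ▸ Real.sqrt_le_sqrt (by nlinarith)) hp0.le)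
      (max_le (le_abs_self d) (abs_nonneg d)) (le_max_right _ _) ht0.le
  have hA := mul_le_mul_of_nonneg_left (mul_le_mul_of_nonpos_right hq hneg) hd2
  have hB := mul_le_mul_of_nonneg_right hsh hW.le
  rw [show |(0 : ℝ)| = 0 from abs_zero, h2a]
  have hk : kern t |d| = 1 + ((1 - d ^ 2) * (1 * (profD t - prof t / t)) + 4 * (prof t / t) -
      4 * (t * |d| * (prof t / t))) := by
    rw [kern, sq_abs]; field_simp; ring
  rw [hk]
  push_cast
  linarith

/-- `RowPin`. -/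
theorem rowPin : RowPin := by
  intro G D h o R M P₀ v₀ l θ ε κ hR hM hP₀ hv₀ hl hθ hε hκ
  have hK := h.proper o R
  obtain ⟨Vm, hVm⟩ : ∃ z : ℝ, z = max v₀ (volG G {y | D o y ≤ R}) := ⟨_, rfl⟩
  have hVm0 : 0 < Vm := hVm ▸ lt_max_of_lt_left hv₀
  have hθ0 : 0 < θ := by linarith
  obtain ⟨s₀, hs₀⟩ : ∃ z : ℝ, z = l / 5 * θ * Vm ^ (-(1 : ℝ) / 5) := ⟨_, rfl⟩
  obtain ⟨s₁, hs₁⟩ : ∃ z : ℝ, z = l / 5 * θ * v₀ ^ (-(1 : ℝ) / 5) := ⟨_, rfl⟩
  have hs00 : 0 < s₀ := by rw [hs₀]; positivity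
  have hev := Dir.dirRowPin 5 (by norm_num) G D h o R P₀ v₀ l M θ κ hR hP₀ hv₀ hl hM hθ hκ
    (Icc s₀ s₁) (wfam s₀ ε) isCompact_Icc (contDiff_wfam hs00 hε) fun p hp a b _ _ =>
      div_pos (prof_pos (rad_pos hs00 hε _ _)) (rad_pos hs00 hε _ _)
  obtain ⟨δ₀, hrow, hδ₀⟩ := (hev.and self_mem_nhdsWithin).exists
  refine ⟨δ₀, hδ₀, fun δ u hδ _ hu x hx => ?_⟩
  obtain ⟨hc, hPu, hVu, hgu, hopt⟩ := hu
  obtain ⟨p, hp⟩ : ∃ z, z = scale G l θ u := ⟨_, rfl⟩
  have hV0 : 0 < vol G u := hv₀.trans_le hVu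
  have hpP : p ∈ Icc s₀ s₁ := by
    rw [hp, scale, hs₀, hs₁]
    exact ⟨mul_le_mul_of_nonneg_left (Real.rpow_le_rpow_of_nonpos hV0
        (hVm ▸ (h.vol_le hK hc).trans (le_max_right _ _)) (by norm_num)) (by positivity),
      mul_le_mul_of_nonneg_left (Real.rpow_le_rpow_of_nonpos hv₀ hVu (by norm_num)) (by positivity)⟩
  have hh : l * ((((5 : ℕ) : ℝ) - 1) / ((5 : ℕ) : ℝ)) * θ *
      vol G u ^ ((((5 : ℕ) : ℝ) - 1) / ((5 : ℕ) : ℝ) - 1) = 4 * p := by
    rw [hp, scale]; norm_num; ring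
  have h0 : conorm G x (0 : Fin 5 → ℝ) ≤ 1 := by rw [conorm_zero]; exact zero_le_one
  obtain ⟨hi, hle⟩ := hrow u ⟨hc, hPu, hVu, hgu.trans hδ,
    fun u' hu' => (hopt u' hu').trans (by linarith)⟩ x 0 hx h0 p hpP
  rw [hh] at hi hle
  rw [← hp]
  have := Sharp.isFiniteMeasure_pm h hK hc
  have hpt : ∀ y, kern (p * Real.sqrt (2 * D x y + ε ^ 2)) (Six.acos G D u x y) ≤
      1 + Dir.kern 5 (4 * p) (wfam s₀ ε p) (D x y) (Dir.side G D x 0 y) (Dir.scos G D u x y) := by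
    intro y
    have e : Six.acos G D u x y = |Dir.scos G D u x y| := by
      rw [Six.acos, Dir.scos, abs_div, abs_neg,
        abs_of_nonneg (mul_nonneg (conorm_nonneg _ _) (Real.sqrt_nonneg _))]
    rw [e]
    exact kern_le hs00 hε hpP.1 (h.dist_nonneg x y) (e ▸ h.acos_le_one u x y) _
  have hk0 : ∀ y, 0 ≤ kern (p * Real.sqrt (2 * D x y + ε ^ 2)) (Six.acos G D u x y) := fun y => by
    have : 0 < p := hs00.trans_le hpP.1
    refine kern_nonneg (by have := h.dist_nonneg x y; positivity) ?_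
    rw [abs_of_nonneg (Six.acos_nonneg u x y)]
    exact h.acos_le_one u x y
  have hI := (integrable_const (1 : ℝ)).fun_add hi
  refine (lintegral_mono fun y => ENNReal.ofReal_le_ofReal (hpt y)).trans ?_
  rw [← ofReal_integral_eq_lintegral_ofReal hI
    (Eventually.of_forall fun y => (hk0 y).trans (hpt y))]
  refine ENNReal.ofReal_le_ofReal ?_
  rw [integral_add (integrable_const _) hi, integral_const, smul_eq_mul, mul_one, Measure.real,
    Sharp.pm_univ h hK hc]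
  linarith

end Vale.Agent.P219.CH.Five
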