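import Vale.Agent.P219.Five.Assembly
import Vale.Agent.P219.Five.Lines
import Vale.Agent.P219.Five.Polar
import Vale.Agent.P219.Five.Row
import Vale.Agent.P219.Five.Integral
import Vale.Agent.P219.Five.Euclid
import Vale.Agent.P219.Five.Moment
import Vale.Agent.P219.Six.Exists
import Vale.Agent.P219.CH.Min

/-!
# The sharp isoperimetric inequality in dimension five
-/

noncomputable section

namespace Vale.Agent.P219.CH.Five

/-- The sharp inequality for every metric with an exponential map. -/
theorem sharpFive : SharpFive :=
  assembly (minPin 5) rowPin (linesAssembly polarPin momentPin integralPin)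

end Vale.Agent.P219.CH.Five
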